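import Vale.Agent.P273.H730.One1

/-!
P273, row ASY1, (O): what the base data (the coefficients `A ξ b`, `c ξ b` of the flat potential
`A ξ b (P b x) + c ξ b`) have to satisfy near the divisor where two roots coincide.
-/

noncomputable section
namespace Vale.Agent.P273.H401

open Set Filter H681 H95 H730
open scoped Topology ContDiff

/-- **Base data near the divisor.** `t = (yl cc d)⁻¹` = 1 / length of the neck. Types of classes: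
any / no period on the vanishing cycle / the class of the pair. -/
def BaseO (A : (Fin 6 → ℝ) → C6 → (ℂ × ℂ →L[ℝ] ℝ)) (c : (Fin 6 → ℝ) → C6 → ℝ) : Prop :=
  ∀ k : Fin 5, ∀ q₀ ∈ H828.XD k, ∃ U ∈ 𝓝 q₀, ∀ cc, 0 < cc → ∃ M₀ B : ℝ, 0 < M₀ ∧ 0 < B ∧
  ∀ q d, Adm k U cc M₀ q d → ∀ (δ : C6) (lam : ℂ) (ξ : Fin 6 → ℝ), IsCl ξ →
    (‖A ξ (bd k q d)‖ ≤ B * ‖ξ‖ ∧
      ‖fderiv ℝ (A ξ) (bd k q d) (bw k δ d lam)‖ ≤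
        B * ‖ξ‖ * (‖δ‖ + (yl cc d)⁻¹ * ‖lam‖ + |lam.im|) ∧
      |fderiv ℝ (c ξ) (bd k q d) (bw k δ d lam)| ≤
        B * ‖ξ‖ * (‖δ‖ + (yl cc d)⁻¹ * ‖lam‖ + |lam.im|)) ∧
    (ξ k.castSucc = ξ k.succ →
      ‖fderiv ℝ (A ξ) (bd k q d) (bw k δ d lam)‖ ≤
        B * ‖ξ‖ * (‖δ‖ + (yl cc d)⁻¹ * ‖lam‖) ∧
      |fderiv ℝ (c ξ) (bd k q d) (bw k δ d lam)| ≤
        B * ‖ξ‖ * (‖δ‖ + (yl cc d)⁻¹ * ‖lam‖)) ∧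
    (‖A (alc k) (bd k q d)‖ ≤ B * (yl cc d)⁻¹ ∧
      ‖fderiv ℝ (A (alc k)) (bd k q d) (bw k δ d lam)‖ ≤
        B * (yl cc d)⁻¹ * (‖δ‖ + (yl cc d)⁻¹ * ‖lam‖) ∧
      |fderiv ℝ (c (alc k)) (bd k q d) (bw k δ d lam)| ≤
        B * (yl cc d)⁻¹ * (‖δ‖ + (yl cc d)⁻¹ * ‖lam‖))

end Vale.Agent.P273.H401
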