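import Mathlib.Analysis.Calculus.DifferentialForm.Basic
import Mathlib.MeasureTheory.Integral.DivergenceTheorem

/-!
# Stokes on cubes for continuous alternating forms (any degree)
-/

open MeasureTheory Set

namespace Vale.Agent.P273.H401

variable {n : ℕ} {E : Type*} [NormedAddCommGroup E] [NormedSpace ℝ E]
  {F : Type*} [NormedAddCommGroup F] [NormedSpace ℝ F]

/-- the standard basis vectors -/
abbrev eb (m : ℕ) (i : Fin m) : Fin m → ℝ := Pi.single i 1

/-- integral of an `m`-form over the unit cube of `ℝ^m` -/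
noncomputable def cubeInt {m : ℕ} (ω : (Fin m → ℝ) → (Fin m → ℝ) [⋀^Fin m]→L[ℝ] F) : F :=
  ∫ x in Icc (0 : Fin m → ℝ) 1, ω x (eb m)

/-- pull back of a form -/
noncomputable def pb {D : Type*} [NormedAddCommGroup D] [NormedSpace ℝ D] {m : ℕ}
    (σ : D → E) (ω : E → E [⋀^Fin m]→L[ℝ] F) (x : D) : D [⋀^Fin m]→L[ℝ] F :=
  (ω (σ x)).compContinuousLinearMap (fderiv ℝ σ x)

/-- the face `x_i = t` of the cube -/
def face (i : Fin (n + 1)) (t : ℝ) (y : Fin n → ℝ) : Fin (n + 1) → ℝ := i.insertNth t y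

theorem face_mem (i : Fin (n + 1)) {t : ℝ} (ht : t ∈ Icc (0 : ℝ) 1) {y : Fin n → ℝ}
    (hy : y ∈ Icc (0 : Fin n → ℝ) 1) : face i t y ∈ Icc (0 : Fin (n + 1) → ℝ) 1 := by
  constructor
  · intro j
    refine Fin.succAboveCases i ?_ (fun k => ?_) j
    · simpa [face] using ht.1
    · simpa [face] using hy.1 k
  · intro j
    refine Fin.succAboveCases i ?_ (fun k => ?_) j
    · simpa [face] using ht.2
    · simpa [face] using hy.2 k

/-- Stokes for a form of degree `n` on the unit cube of `ℝ^(n+1)`, weak hypotheses -/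
theorem stokes_cube' {ω : (Fin (n + 1) → ℝ) → (Fin (n + 1) → ℝ) [⋀^Fin n]→L[ℝ] F}
    (Hc : ∀ v, ContinuousOn (fun x => ω x v) (Icc 0 1))
    (Hd : ∀ x ∈ Icc (0 : Fin (n + 1) → ℝ) 1, DifferentiableAt ℝ ω x)
    (Hi : IntegrableOn (fun x => extDeriv ω x (eb (n + 1))) (Icc 0 1)) :
    cubeInt (extDeriv ω) = ∑ i : Fin (n + 1), (-1 : ℝ) ^ (i : ℕ) •
      ((∫ y in Icc (0 : Fin n → ℝ) 1, ω (face i 1 y) (fun j => eb (n + 1) (i.succAbove j))) -
        ∫ y in Icc (0 : Fin n → ℝ) 1, ω (face i 0 y) (fun j => eb (n + 1) (i.succAbove j))) := by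
  have hda : ∀ x ∈ Icc (0 : Fin (n + 1) → ℝ) 1, ∀ v : Fin n → (Fin (n + 1) → ℝ),
      DifferentiableAt ℝ (fun x => ω x v) x :=
    fun x hx v => by
      have := (ContinuousAlternatingMap.apply ℝ (Fin (n + 1) → ℝ) F v).differentiableAt.comp x
        (Hd x hx)
      exact this
  have hext : ∀ x ∈ Icc (0 : Fin (n + 1) → ℝ) 1, extDeriv ω x (eb (n + 1)) =
      ∑ i : Fin (n + 1), ((-1 : ℝ) ^ (i : ℕ) •
        fderiv ℝ (fun x => ω x (fun j => eb (n + 1) (i.succAbove j))) x) (Pi.single i 1) := by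
    intro x hx
    rw [extDeriv_apply (Hd x hx)]
    refine Finset.sum_congr rfl fun i _ => ?_
    rw [← Int.cast_smul_eq_zsmul ℝ]
    push_cast
    rfl
  have key := integral_divergence_of_hasFDerivAt_off_countable' (E := F)
    (0 : Fin (n + 1) → ℝ) 1 (fun i => by simp)
    (fun i x => (-1 : ℝ) ^ (i : ℕ) • ω x (fun j => eb (n + 1) (i.succAbove j)))
    (fun i x => (-1 : ℝ) ^ (i : ℕ) • fderiv ℝ (fun x => ω x (fun j => eb (n + 1) (i.succAbove j))) x)
    ∅ countable_empty
    (fun i => (Hc _).const_smul _)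
    (fun x hx i => by
      have hxI : x ∈ Icc (0 : Fin (n + 1) → ℝ) 1 :=
        ⟨fun j => (hx.1 j (mem_univ j)).1.le, fun j => (hx.1 j (mem_univ j)).2.le⟩
      exact (hda x hxI _).hasFDerivAt.const_smul _)
    (Hi.congr_fun hext measurableSet_Icc)
  unfold cubeInt
  rw [setIntegral_congr_fun measurableSet_Icc hext, key]
  refine Finset.sum_congr rfl fun i _ => ?_
  rw [smul_sub]
  simp only [integral_smul]
  rfl

/-- pull back of a differentiable form is differentiable -/
theorem differentiableAt_pb {D : Type*} [NormedAddCommGroup D] [NormedSpace ℝ D] {m : ℕ}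
    {σ : D → E} {ω : E → E [⋀^Fin m]→L[ℝ] F} {x : D} (hσ : ContDiffAt ℝ 2 σ x)
    (hω : DifferentiableAt ℝ ω (σ x)) : DifferentiableAt ℝ (pb σ ω) x := by
  have h1 : DifferentiableAt ℝ (fun x => ω (σ x)) x :=
    hω.comp x (hσ.differentiableAt two_ne_zero)
  have h2 : DifferentiableAt ℝ (fderiv ℝ σ) x :=
    (hσ.fderiv_right (m := 1) (by norm_num)).differentiableAt one_ne_zero
  exact (h1.hasFDerivAt.continuousAlternatingMapCompContinuousLinearMap
    h2.hasFDerivAt).differentiableAt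

theorem continuousOn_pb {D : Type*} [NormedAddCommGroup D] [NormedSpace ℝ D] {m : ℕ}
    {σ : D → E} {ω : E → E [⋀^Fin m]→L[ℝ] F} {U : Set D} {W : Set E} (hU : IsOpen U)
    (hσ : ContDiffOn ℝ 1 σ U) (hω : ContinuousOn ω W) (hm : MapsTo σ U W) (v : Fin m → D) :
    ContinuousOn (fun x => pb σ ω x v) U := by
  have h1 : ContinuousOn (fun x => ω (σ x)) U := hω.comp hσ.continuousOn hm
  have h2 : ContinuousOn (fun x => fun j => fderiv ℝ σ x (v j)) U :=
    continuousOn_pi.2 fun j =>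
      (hσ.continuousOn_fderiv_of_isOpen hU le_rfl).clm_apply continuousOn_const
  exact (continuous_eval (F := E [⋀^Fin m]→L[ℝ] F)).comp_continuousOn (h1.prodMk h2)

theorem fderiv_face (i : Fin (n + 1)) (t : ℝ) (y : Fin n → ℝ) :
    HasFDerivAt (face i t) (ContinuousLinearMap.pi
      (fun j : Fin (n + 1) => Fin.succAboveCases (α := fun _ => (Fin n → ℝ) →L[ℝ] ℝ) i 0
        (fun k => ContinuousLinearMap.proj k) j)) y := by
  rw [hasFDerivAt_pi']
  intro j
  refine Fin.succAboveCases i ?_ (fun k => ?_) j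
  · have : (fun y : Fin n → ℝ => face i t y i) = fun _ => t := by
      funext y; simp [face]
    rw [this]
    refine (hasFDerivAt_const t y).congr_fderiv ?_
    ext; simp
  · have : (fun y : Fin n → ℝ => face i t y (i.succAbove k)) = fun y => y k := by
      funext y; simp [face]
    rw [this]
    refine (ContinuousLinearMap.proj (R := ℝ) (φ := fun _ : Fin n => ℝ) k).hasFDerivAt.congr_fderiv
      ?_
    ext; simp

theorem fderiv_face_apply (i : Fin (n + 1)) (t : ℝ) (y : Fin n → ℝ) (j : Fin n) :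
    fderiv ℝ (face i t) y (eb n j) = eb (n + 1) (i.succAbove j) := by
  rw [(fderiv_face i t y).fderiv]
  ext l
  simp only [ContinuousLinearMap.coe_pi']
  refine Fin.succAboveCases i ?_ (fun k => ?_) l
  · simp [(Fin.succAbove_ne i j).symm]
  · simp [Pi.single_apply]

/-- **Stokes for a singular `C²` cube** -/
theorem stokes_sing {σ : (Fin (n + 1) → ℝ) → E} {ω : E → E [⋀^Fin n]→L[ℝ] F}
    {U : Set (Fin (n + 1) → ℝ)} {W : Set E} (hU : IsOpen U) (hI : Icc 0 1 ⊆ U) (hW : IsOpen W)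
    (hσ : ContDiffOn ℝ 2 σ U) (hω : ContDiffOn ℝ 1 ω W) (hm : MapsTo σ U W) :
    cubeInt (pb σ (extDeriv ω)) = ∑ i : Fin (n + 1), (-1 : ℝ) ^ (i : ℕ) •
      (cubeInt (pb (fun y => σ (face i 1 y)) ω) - cubeInt (pb (fun y => σ (face i 0 y)) ω)) := by
  have hσa : ∀ x ∈ U, ContDiffAt ℝ 2 σ x := fun x hx => (hσ x hx).contDiffAt (hU.mem_nhds hx)
  have hωa : ∀ x ∈ U, DifferentiableAt ℝ ω (σ x) := fun x hx =>
    ((hω _ (hm hx)).contDiffAt (hW.mem_nhds (hm hx))).differentiableAt one_ne_zero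
  have hext : ∀ x ∈ U, extDeriv (pb σ ω) x = pb σ (extDeriv ω) x := fun x hx =>
    extDeriv_pullback (hωa x hx) (hσa x hx) (by simp)
  have hdc : ContinuousOn (extDeriv ω) W := by
    have h1 : ContinuousOn (fderiv ℝ ω) W := hω.continuousOn_fderiv_of_isOpen hW le_rfl
    exact (ContinuousAlternatingMap.alternatizeUncurryFinCLM ℝ E F).continuous.comp_continuousOn h1
  have key := stokes_cube' (ω := pb σ ω)
    (fun v => (continuousOn_pb hU (hσ.of_le (by norm_num)) hω.continuousOn hm v).mono hI)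
    (fun x hx => differentiableAt_pb (hσa x (hI hx)) (hωa x (hI hx)))
    (by
      refine IntegrableOn.congr_fun (f := fun x => pb σ (extDeriv ω) x (eb (n + 1))) ?_
        (fun x hx => by rw [hext x (hI hx)]) measurableSet_Icc
      exact ((continuousOn_pb hU (hσ.of_le (by norm_num)) hdc hm _).mono hI).integrableOn_compact
        isCompact_Icc)
  have h0 : cubeInt (extDeriv (pb σ ω)) = cubeInt (pb σ (extDeriv ω)) :=
    setIntegral_congr_fun measurableSet_Icc fun x hx => by rw [hext x (hI hx)]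
  have hf : ∀ (i : Fin (n + 1)) (t : ℝ), t ∈ Icc (0 : ℝ) 1 →
      (∫ y in Icc (0 : Fin n → ℝ) 1, pb σ ω (face i t y)
        (fun j => eb (n + 1) (i.succAbove j))) = cubeInt (pb (fun y => σ (face i t y)) ω) := by
    intro i t ht
    refine setIntegral_congr_fun measurableSet_Icc fun y hy => ?_
    have hy' := hI (face_mem i ht hy)
    have hc : fderiv ℝ (fun y => σ (face i t y)) y =
        (fderiv ℝ σ (face i t y)).comp (fderiv ℝ (face i t) y) :=
      fderiv_comp y ((hσa _ hy').differentiableAt two_ne_zero)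
        (fderiv_face i t y).differentiableAt
    show ω (σ (face i t y)) _ = ω (σ (face i t y)) _
    congr 1
    funext j
    show fderiv ℝ σ (face i t y) _ = fderiv ℝ (fun y => σ (face i t y)) y (eb n j)
    rw [hc]
    show _ = fderiv ℝ σ (face i t y) (fderiv ℝ (face i t) y (eb n j))
    rw [fderiv_face_apply]
  rw [← h0, key]
  refine Finset.sum_congr rfl fun i _ => ?_
  rw [hf i 1 (by simp), hf i 0 (by simp)]

end Vale.Agent.P273.H401
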