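import Vale.Agent.P273.H879.Bnd
import Vale.Agent.P273.H887.Pol

/-!
P273, row NEG, (c1): the logarithmic chart of a one-node region: derivatives and bounds of
`toSp`, `toE`, and the relation `psi (toSp p) = (rts (toE p).1, (toE p).2)`.
-/

noncomputable section
namespace Vale.Agent.P273.H401.Ch1

open Set Filter H95 H879
open scoped Topology ContDiff

variable {R : Region1} {m : Fin (R.n + 1)}

theorem norm_cw1_le {c : ℝ} (h0 : 0 < c) (g : Fin (R.n + 1)) :
    ‖(cw1 c g : ℂ)‖ ≤ (1 + c) * (1 + c) := by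
  unfold cw1
  rw [norm_mul]
  have h : ∀ P : Prop, ∀ [Decidable P], ‖(if P then (c : ℂ) else 1)‖ ≤ 1 + c := by
    intro P _
    split_ifs
    · rw [Complex.norm_real, Real.norm_eq_abs, abs_of_pos h0]; linarith
    · simp; linarith
  exact mul_le_mul (h _) (h _) (norm_nonneg _) (by positivity)

/-- scaling of the gaps -/
def scG (R : Region1) (m : Fin (R.n + 1)) (c : ℝ) : (wr R m).Tg (R.Cm ⊕ Fin 5) →L[ℝ] R.Sp :=
  (ContinuousLinearMap.pi fun g : Fin (R.n + 1) => (cw1 c g) •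
    ((ContinuousLinearMap.proj (⟨(), g⟩ : Σ _ : Unit, Fin (R.n + 1)) :
      ((Σ _ : Unit, Fin (R.n + 1)) → ℂ) →L[ℝ] ℂ).comp
      (ContinuousLinearMap.fst ℝ _ _))).prod (ContinuousLinearMap.snd ℝ _ _)

theorem scG_apply (c : ℝ) (q : (wr R m).Tg (R.Cm ⊕ Fin 5)) :
    scG R m c q = (fun g => cw1 c g * q.1 ⟨(), g⟩, q.2) := by
  unfold scG
  ext <;> simp

theorem toSp_eq (c : ℝ) (p : Co1 R m) : toSp c p = scG R m c ((wr R m).psi p) := by
  rw [scG_apply]; rfl

theorem norm_scG_le {c : ℝ} (h0 : 0 < c) (q : (wr R m).Tg (R.Cm ⊕ Fin 5)) :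
    ‖scG R m c q‖ ≤ (1 + c) * (1 + c) * ‖q‖ := by
  have h1 : ‖q.1‖ ≤ ‖q‖ := norm_fst_le q
  have h2 : ‖q.2‖ ≤ ‖q‖ := norm_snd_le q
  have h3 : 1 ≤ (1 + c) * (1 + c) := by nlinarith
  rw [scG_apply, Prod.norm_mk]
  refine max_le ?_ (h2.trans (le_mul_of_one_le_left (norm_nonneg _) h3))
  refine (pi_norm_le_iff_of_nonneg (by positivity)).2 fun g => ?_
  rw [norm_mul]
  exact mul_le_mul (norm_cw1_le h0 g) ((norm_le_pi_norm q.1 _).trans h1) (norm_nonneg _)
    (by positivity)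

/-- the derivative of `toSp` -/
def dSp (c : ℝ) (p : Co1 R m) : Co1 R m →L[ℝ] R.Sp := (scG R m c).comp ((wr R m).dpsi p)

theorem hasFDerivAt_toSp (c : ℝ) (p : Co1 R m) : HasFDerivAt (toSp c) (dSp c p) p := by
  have h := (scG R m c).hasFDerivAt.comp p ((wr R m).hasFDerivAt_psi p)
  exact h.congr_of_eventuallyEq (Eventually.of_forall fun p => toSp_eq c p)

theorem fderiv_toSp (c : ℝ) (p : Co1 R m) : fderiv ℝ (toSp c) p = dSp c p :=
  (hasFDerivAt_toSp c p).fderiv

theorem contDiff_toSp (c : ℝ) {n : ℕ∞ω} : ContDiff ℝ n (toSp c : Co1 R m → R.Sp) := by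
  have h : (toSp c : Co1 R m → R.Sp) = fun p => scG R m c ((wr R m).psi p) :=
    funext fun p => toSp_eq c p
  rw [h]
  exact (scG R m c).contDiff.comp ((wr R m).contDiff_psi.of_le le_top)

theorem n_le (R : Region1) : R.n ≤ 14 := by
  unfold Region1.n
  refine (Finset.card_le_univ _).trans ?_
  simp

theorem card_gaps (R : Region1) : (Fintype.card (Σ _ : Unit, Fin (R.n + 1)) : ℝ) ≤ 15 := by
  have h := n_le R
  simp only [Fintype.card_sigma, Fintype.card_fin, Finset.sum_const, Finset.card_univ,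
    Fintype.card_unit, one_smul]
  exact_mod_cast (by omega : R.n + 1 ≤ 15)

theorem exp_le_sqrt {u y : ℝ} (hu : 0 ≤ u) :
    Real.exp (-u) ≤ Real.sqrt (max (Real.exp (-u)) y⁻¹) := by
  have h1 : Real.exp (-u) ≤ 1 := Real.exp_le_one_iff.2 (by linarith)
  have h0 := (Real.exp_pos (-u)).le
  calc Real.exp (-u) = Real.sqrt (Real.exp (-u) * Real.exp (-u)) := (Real.sqrt_mul_self h0).symm
    _ ≤ Real.sqrt (max (Real.exp (-u)) y⁻¹) := by
      refine Real.sqrt_le_sqrt (le_trans ?_ (le_max_left _ _))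
      nlinarith

/-- the eliminated gap is exponentially small -/
theorem exp_ul_le {p : Co1 R m} (hp : (wr R m).Inr p) (hy : 1 ≤ p.2.2.1 ()) :
    Real.exp (-(wr R m).ul p ()) ≤ 15 * (p.2.2.1 ())⁻¹ := by
  have hy0 : 0 < p.2.2.1 () := lt_of_lt_of_le one_pos hy
  have h := (wr R m).y_le hp () hy0.le
  have hu := (wr R m).ul_nonneg hp () hy0.le
  have h1 : p.2.2.1 () ≤ 15 * (wr R m).ul p () :=
    h.trans (mul_le_mul_of_nonneg_right (card_gaps R) hu)
  have h2 : Real.exp (-(wr R m).ul p ()) ≤ Real.exp (-(p.2.2.1 () / 15)) :=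
    Real.exp_le_exp.2 (by linarith)
  refine h2.trans ?_
  have h3 := Real.add_one_le_exp (p.2.2.1 () / 15)
  rw [Real.exp_neg, show 15 * (p.2.2.1 ())⁻¹ = (p.2.2.1 () / 15)⁻¹ by rw [inv_div]; rfl]
  exact inv_anti₀ (by positivity) (by linarith)

theorem inv_le_sqrt_inv {y : ℝ} (hy : 1 ≤ y) : y⁻¹ ≤ Real.sqrt y⁻¹ := by
  have hy0 : 0 < y := lt_of_lt_of_le one_pos hy
  have h1 : y⁻¹ ≤ 1 := inv_le_one_of_one_le₀ hy
  have h0 : 0 ≤ y⁻¹ := (inv_pos.2 hy0).le
  calc y⁻¹ = Real.sqrt (y⁻¹ * y⁻¹) := (Real.sqrt_mul_self h0).symm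
    _ ≤ Real.sqrt y⁻¹ := Real.sqrt_le_sqrt (by nlinarith)

theorem cst_nonneg {p : Co1 R m} (hy : 0 ≤ p.2.2.1 ()) (d : Dir1 R m) : 0 ≤ cst p d := by
  cases d <;> simp [cst, Real.sqrt_nonneg, hy]

/-- **bound of the derivative of the chart** in the frame `evec` by the costs -/
theorem norm_fderiv_toSp_evec {c : ℝ} (h0 : 0 < c) {p : Co1 R m}
    (hp : (wr R m).Inr p) (hy : 1 ≤ p.2.2.1 ()) (d : Dir1 R m) :
    ‖fderiv ℝ (toSp c) p (evec p d)‖ ≤ (1 + c) * (1 + c) * 15 * cst p d := by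
  have hy0 : 0 < p.2.2.1 () := lt_of_lt_of_le one_pos hy
  have hul : ∀ k, 0 ≤ (wr R m).ul p k := fun k => (wr R m).ul_nonneg hp k (by
    cases k; exact hy0.le)
  rw [fderiv_toSp]
  refine (norm_scG_le h0 _).trans ?_
  rw [mul_assoc ((1 + c) * (1 + c))]
  refine mul_le_mul_of_nonneg_left ?_ (by positivity)
  have hvec : ∀ d : Dir1 R m, (wr R m).wt p d ≤ 15 * cst p d →
      ‖(wr R m).dpsi p ((wr R m).vec d)‖ ≤ 15 * cst p d := fun d h =>
    ((wr R m).norm_dpsi_vec_le hp d).trans h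
  have h15 : ∀ x : ℝ, 0 ≤ x → x ≤ 15 * x := fun x hx => by linarith
  cases d with
  | u f =>
    refine hvec _ ?_
    exact (exp_le_sqrt (hp.1 f)).trans (h15 _ (Real.sqrt_nonneg _))
  | ph f =>
    refine hvec _ ?_
    exact (exp_le_sqrt (hp.1 f)).trans (h15 _ (Real.sqrt_nonneg _))
  | y k =>
    cases k
    refine ((wr R m).norm_dpsi_eul_le' hp hy0 hul).trans ?_
    exact mul_le_mul_of_nonneg_right (card_gaps R) (inv_pos.2 hy0).le
  | al k =>
    cases k
    refine hvec _ ?_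
    show Real.exp (-(wr R m).ul p ()) ≤ 15 * Real.sqrt (p.2.2.1 ())⁻¹
    exact (exp_ul_le hp hy).trans (mul_le_mul_of_nonneg_left (inv_le_sqrt_inv hy) (by norm_num))
  | re c => exact hvec _ (by show (1 : ℝ) ≤ 15 * 1; norm_num)
  | im c => exact hvec _ (by show (1 : ℝ) ≤ 15 * 1; norm_num)

theorem derOf : DerOf := fun c hc =>
  ⟨(1 + c) * (1 + c) * 15, by positivity, fun _ _ _ d hp hy => norm_fderiv_toSp_evec hc hp hy d⟩

/-! ### smoothness of the positions -/

theorem contDiff_gap (g : Fin (R.n + 1)) {n : ℕ∞ω} : ContDiff ℝ n (fun q : R.Sp => q.1 g) := by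
  fun_prop

theorem contDiff_bas (i : R.Cm ⊕ Fin 5) {n : ℕ∞ω} : ContDiff ℝ n (fun q : R.Sp => q.2 i) := by
  fun_prop

theorem contDiff_XX (i : ℕ) {n : ℕ∞ω} : ContDiff ℝ n (fun q : R.Sp => R.XX q i) := by
  unfold Region1.XX
  refine contDiff_prod fun g _ => ?_
  split_ifs
  · exact contDiff_gap g
  · exact contDiff_const

theorem contDiff_YY (i : ℕ) {n : ℕ∞ω} : ContDiff ℝ n (fun q : R.Sp => R.YY q i) := by
  unfold Region1.YY
  refine contDiff_prod fun g _ => ?_
  split_ifs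
  · exact contDiff_gap g
  · exact contDiff_const

theorem contDiff_pos {n : ℕ∞ω} : ContDiff ℝ n (fun q : R.Sp => R.pos q) := by
  rw [contDiff_pi]
  intro j
  unfold Region1.pos Region1.ctr
  split_ifs with h
  · exact contDiff_bas _
  · exact (contDiff_bas _).add (((contDiff_XX _).add (contDiff_YY _)).div_const 2)

theorem contDiff_zh (c : ℝ) {n : ℕ∞ω} : ContDiff ℝ n (zh c : Co1 R m → ℂ) := by
  unfold zh
  have h1 : ContDiff ℝ n (fun p : Co1 R m => ((p.2.2.1 () : ℝ) : ℂ)) :=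
    Complex.ofRealCLM.contDiff.comp (by fun_prop)
  have h2 : ContDiff ℝ n (fun p : Co1 R m => ((p.2.2.2.1 () : ℝ) : ℂ)) :=
    Complex.ofRealCLM.contDiff.comp (by fun_prop)
  exact contDiff_const.mul ((h1.neg.add (h2.mul contDiff_const)).div_const 2).cexp

theorem contDiff_pr (k : Fin 5) {H : Type*} [NormedAddCommGroup H] [NormedSpace ℝ H]
    {b : H → H681.C6} {e d : H → ℂ} {n : ℕ∞ω} (hb : ContDiff ℝ n b) (he : ContDiff ℝ n e)
    (hd : ContDiff ℝ n d) : ContDiff ℝ n (fun x => H828.pr k (b x) (e x) (d x)) := by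
  rw [contDiff_pi]
  intro j
  unfold H828.pr
  split_ifs
  · exact he.sub hd
  · exact he.add hd
  · exact contDiff_pi.1 hb j

theorem contDiff_toE (k : Fin 5) (c : ℝ) {n : ℕ∞ω} : ContDiff ℝ n (toE k c : Co1 R m → E) := by
  unfold toE
  refine ContDiff.prodMk (contDiff_pr k ?_ ?_ (contDiff_zh c)) (contDiff_pos.comp (contDiff_toSp c))
  · rw [contDiff_pi]
    intro j
    exact (contDiff_bas _).comp (contDiff_toSp c)
  · exact (contDiff_bas _).comp (contDiff_toSp c)

/-! ### the coefficients -/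

theorem eps_toSp (c : ℝ) (p : Co1 R m) : R.eps (toSp c p) = zh c p ^ 2 := by
  have h1 : ∏ g : Fin (R.n + 1), (cw1 c g : ℂ) = (c : ℂ) ^ 2 := by
    unfold cw1
    rw [Finset.prod_mul_distrib, Finset.prod_ite_eq', Finset.prod_ite_eq']
    simp [sq]
  have h2 : ∏ g : Fin (R.n + 1), (wr R m).tau p ⟨(), g⟩ =
      Complex.exp (-(p.2.2.1 () : ℂ) + (p.2.2.2.1 () : ℂ) * Complex.I) := by
    rw [← (wr R m).prod_tau p (), Fintype.prod_sigma]
    simp
  unfold Region1.eps toSp
  simp only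
  rw [Finset.prod_mul_distrib, h1, h2]
  unfold zh
  rw [mul_pow, ← Complex.exp_nat_mul]
  congr 2
  push_cast
  ring

open Polynomial in
theorem prod_pr (k : Fin 5) (o : Fin 4 → ℂ) (e z : ℂ) :
    ∏ j : Fin 6, (X - C (H828.pr k (fun j => o (oj k j)) e z j)) =
      ((X - C e) ^ 2 - C (z ^ 2)) * ∏ l : Fin 4, (X - C (o l)) := by
  have hval : ∀ j, H828.pr k (fun j => o (oj k j)) e z j = if j = k.castSucc then e - z else
    if j = k.succ then e + z else o (oj k j) := fun j => rfl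
  have hs : (X - C (e - z)) * (X - C (e + z)) = ((X - C e) ^ 2 - C (z ^ 2)) := by
    simp only [map_sub, map_add, map_pow]; ring
  rw [← hs]
  simp only [hval, Fin.prod_univ_six, Fin.prod_univ_four]
  fin_cases k <;>
    simp [oj, Fin.ext_iff] <;> ring

theorem cf_toSp (k : Fin 5) (c : ℝ) (p : Co1 R m) :
    R.cf (toSp c p) = rts (toE k c p).1 := by
  funext i
  unfold Region1.cf rts
  rw [eps_toSp]
  unfold toE
  simp only
  rw [prod_pr k (R.oth (toSp c p))]

/-- **the chart of the region and the map to roots and marks** -/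
theorem psi_toSp (k : Fin 5) (c : ℝ) (p : Co1 R m) :
    R.psi (toSp c p) = (rts (toE k c p).1, (toE k c p).2) := by
  unfold Region1.psi
  rw [cf_toSp k]
  rfl

/-- all coefficients depend smoothly on the parameter -/
def CS {H : Type*} [NormedAddCommGroup H] [NormedSpace ℝ H] (P : H → Polynomial ℂ) : Prop :=
  ∀ i, ContDiff ℝ ∞ fun x => (P x).coeff i

section CS

variable {H : Type*} [NormedAddCommGroup H] [NormedSpace ℝ H]

theorem CS.mul {P Q : H → Polynomial ℂ} (hP : CS P) (hQ : CS Q) : CS fun x => P x * Q x := by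
  intro i
  simp only [Polynomial.coeff_mul]
  exact ContDiff.sum fun a _ => (hP _).mul (hQ _)

theorem CS.sub {P Q : H → Polynomial ℂ} (hP : CS P) (hQ : CS Q) : CS fun x => P x - Q x := by
  intro i
  simp only [Polynomial.coeff_sub]
  exact (hP _).sub (hQ _)

theorem CS.const (P : Polynomial ℂ) : CS fun _ : H => P := fun _ => contDiff_const

theorem CS.C {f : H → ℂ} (hf : ContDiff ℝ ∞ f) : CS fun x => Polynomial.C (f x) := by
  intro i
  simp only [Polynomial.coeff_C]
  split_ifs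
  · exact hf
  · exact contDiff_const

theorem CS.prod {ι : Type*} (s : Finset ι) {P : ι → H → Polynomial ℂ} (h : ∀ i, CS (P i)) :
    CS fun x => ∏ i ∈ s, P i x := by
  classical
  induction s using Finset.induction_on with
  | empty => simpa using CS.const 1
  | insert a s ha ih =>
    simp only [Finset.prod_insert ha]
    exact (h a).mul ih

end CS

theorem contDiff_eps {n : ℕ∞ω} : ContDiff ℝ n (fun q : R.Sp => R.eps q) := by
  unfold Region1.eps
  exact contDiff_prod fun g _ => contDiff_gap g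

theorem contDiff_Rpsi : ContDiff ℝ ∞ (fun q : R.Sp => R.psi q) := by
  unfold Region1.psi
  refine ContDiff.prodMk ?_ contDiff_pos
  rw [contDiff_pi]
  intro i
  unfold Region1.cf
  have h1 : CS fun q : R.Sp => (Polynomial.X - Polynomial.C (R.ctr q)) ^ 2 -
      Polynomial.C (R.eps q) := by
    simp only [sq]
    exact (((CS.const _).sub (CS.C (contDiff_bas _))).mul
      ((CS.const _).sub (CS.C (contDiff_bas _)))).sub (CS.C contDiff_eps)
  exact (h1.mul (CS.prod _ fun l => (CS.const _).sub (CS.C (contDiff_bas _)))) i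

theorem pullOf : PullOf := by
  intro X k R m S c p g v hS hok hstd
  rw [X.hext1 R S hS _ g v hok hstd]
  have hpsi : ContDiff ℝ ∞ (fun q : R.Sp => R.psi q) := contDiff_Rpsi
  have h1 : HasFDerivAt (fun p : Co1 R m => R.psi (toSp c p))
      ((fderiv ℝ R.psi (toSp c p)).comp (fderiv ℝ (toSp c) p)) p :=
    ((hpsi.differentiable (by simp)) _).hasFDerivAt.comp p
      (((contDiff_toSp (n := ∞) c).differentiable (by simp)) p).hasFDerivAt
  have h2 : HasFDerivAt (fun p : Co1 R m => R.psi (toSp c p))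
      (((fderiv ℝ rts (toE k c p).1).prodMap (ContinuousLinearMap.id ℝ (L → ℂ))).comp
        (fderiv ℝ (toE k c) p)) p := by
    have e : (fun p : Co1 R m => R.psi (toSp c p)) =
        (fun e : E => (rts e.1, e.2)) ∘ (toE k c) := funext fun p => psi_toSp k c p
    rw [e]
    refine HasFDerivAt.comp p ?_ (((contDiff_toE (n := ∞) k c).differentiable (by simp)) p).hasFDerivAt
    exact HasFDerivAt.prodMap _ (((Vale.P273.H887.contDiff_rts.differentiable (by simp)) _).hasFDerivAt)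
      (hasFDerivAt_id _)
  have h3 := h1.unique h2
  have h4 : R.psi (toSp c p) = (rts (toE k c p).1, (toE k c p).2) := psi_toSp k c p
  ext w
  simp only [GR, ContinuousAlternatingMap.compContinuousLinearMap_apply]
  rw [h4]
  congr 1
  funext i
  have := congrArg (fun T : Co1 R m →L[ℝ] E => T (w i)) h3
  exact this.symm

end Vale.Agent.P273.H401.Ch1
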