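import Vale.Agent.P273.H681.Loc

/-!
Squares and cubes over `XX`: Stokes, equivariance, linearity, degenerate squares.
-/

noncomputable section
namespace Vale.Agent.P273.H401

open MeasureTheory Set H681

variable {n : ℕ} {V F : Type*} [AddCommGroup V] [Module ℝ V] [NormedAddCommGroup F]
  [NormedSpace ℝ F]

/-- integral of `Phi v` over a singular square -/
def sq (D : Loc2 V F) (v : V) (σ : (Fin 2 → ℝ) → C6) : F := cubeInt (pb σ (D.Phi v))

theorem isOpen_XX : IsOpen XX := by
  have h : XX = ⋂ i : Fin 6, ⋂ j : Fin 6, {b : C6 | i < j → ((b i).re = (b j).re →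
      (b j).im < (b i).im)} := by
    ext b; simp [XX]
  rw [h]
  refine isOpen_iInter_of_finite fun i => isOpen_iInter_of_finite fun j => ?_
  by_cases hij : i < j
  · have h2 : {b : C6 | i < j → ((b i).re = (b j).re → (b j).im < (b i).im)} =
        {b : C6 | (b i).re ≠ (b j).re} ∪ {b : C6 | (b j).im < (b i).im} := by
      ext b
      simp only [mem_ofPred_eq, mem_union]
      tauto
    rw [h2]
    refine IsOpen.union ?_ ?_
    · exact isOpen_ne_fun (Complex.continuous_re.comp (continuous_apply i))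
        (Complex.continuous_re.comp (continuous_apply j))
    · exact isOpen_lt (Complex.continuous_im.comp (continuous_apply j))
        (Complex.continuous_im.comp (continuous_apply i))
  · have h2 : {b : C6 | i < j → ((b i).re = (b j).re → (b j).im < (b i).im)} = univ := by
      ext b; simp [hij]
    rw [h2]; exact isOpen_univ

/-- a singular square of class `C²` inside `XX` -/
structure Good (n : ℕ) (σ : (Fin n → ℝ) → C6) : Prop where
  smooth : ContDiff ℝ 2 σ
  mem : ∀ y ∈ Icc (0 : Fin n → ℝ) 1, σ y ∈ XX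

theorem Good.face {σ : (Fin (n + 1) → ℝ) → C6} (h : Good (n + 1) σ) (i : Fin (n + 1)) {t : ℝ}
    (ht : t ∈ Icc (0 : ℝ) 1) : Good n (fun y => σ (face i t y)) := by
  refine ⟨h.smooth.comp ?_, fun y hy => h.mem _ (face_mem i ht hy)⟩
  rw [contDiff_pi]
  intro j
  refine Fin.succAboveCases i ?_ (fun k => ?_) j
  · have : (fun y : Fin n → ℝ => H401.face i t y i) = fun _ => t := by
      funext y; simp [H401.face]
    rw [this]; exact contDiff_const
  · have : (fun y : Fin n → ℝ => H401.face i t y (i.succAbove k)) = fun y => y k := by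
      funext y; simp [H401.face]
    rw [this]; exact contDiff_apply ℝ ℝ k

theorem continuousOn_int {D : Loc2 V F} {v : V} {σ : (Fin 2 → ℝ) → C6} (h : Good 2 σ) :
    ContinuousOn (fun x => pb σ (D.Phi v) x (eb 2)) (Icc 0 1) := by
  have hU : IsOpen (σ ⁻¹' XX) := isOpen_XX.preimage h.smooth.continuous
  exact (continuousOn_pb hU (h.smooth.contDiffOn.of_le (by norm_num)) (D.smooth v).continuousOn
    (fun x hx => hx) (eb 2)).mono fun x hx => h.mem x hx

theorem integrableOn_int {D : Loc2 V F} {v : V} {σ : (Fin 2 → ℝ) → C6} (h : Good 2 σ) :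
    IntegrableOn (fun x => pb σ (D.Phi v) x (eb 2)) (Icc 0 1) :=
  (continuousOn_int h).integrableOn_compact isCompact_Icc

theorem sq_add (D : Loc2 V F) (v w : V) {σ : (Fin 2 → ℝ) → C6} (h : Good 2 σ) :
    sq D (v + w) σ = sq D v σ + sq D w σ := by
  unfold sq cubeInt
  rw [← integral_add (integrableOn_int h) (integrableOn_int h)]
  refine setIntegral_congr_fun measurableSet_Icc fun x _ => ?_
  simp [pb]

theorem sq_smul (D : Loc2 V F) (c : ℝ) (v : V) {σ : (Fin 2 → ℝ) → C6} :
    sq D (c • v) σ = c • sq D v σ := by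
  unfold sq cubeInt
  rw [← integral_smul]
  refine setIntegral_congr_fun measurableSet_Icc fun x _ => ?_
  simp [pb]

theorem sq_neg (D : Loc2 V F) (v : V) {σ : (Fin 2 → ℝ) → C6} :
    sq D (-v) σ = -sq D v σ := by
  have := sq_smul D (-1) v (σ := σ)
  simpa using this

theorem sq_sub (D : Loc2 V F) (v w : V) {σ : (Fin 2 → ℝ) → C6} (h : Good 2 σ) :
    sq D (v - w) σ = sq D v σ - sq D w σ := by
  rw [sub_eq_add_neg, sq_add D _ _ h, sq_neg, sub_eq_add_neg]

theorem sq_zero (D : Loc2 V F) {σ : (Fin 2 → ℝ) → C6} : sq D (0 : V) σ = 0 := by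
  have := sq_smul D 0 (0 : V) (σ := σ)
  simpa using this

/-- the integral only depends on the square near the unit cube -/
theorem sq_congr (D : Loc2 V F) (v : V) {σ τ : (Fin 2 → ℝ) → C6} (h : σ = τ) :
    sq D v σ = sq D v τ := by rw [h]

/-- **Stokes for a cube** -/
theorem cube3 (D : Loc2 V F) (v : V) {σ : (Fin 3 → ℝ) → C6} (h : Good 3 σ) :
    (sq D v (fun y => σ (face 0 1 y)) - sq D v (fun y => σ (face 0 0 y)))
      - (sq D v (fun y => σ (face 1 1 y)) - sq D v (fun y => σ (face 1 0 y)))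
      + (sq D v (fun y => σ (face 2 1 y)) - sq D v (fun y => σ (face 2 0 y))) = 0 := by
  have hU : IsOpen (σ ⁻¹' XX) := isOpen_XX.preimage h.smooth.continuous
  have key := stokes_sing (σ := σ) (ω := D.Phi v) hU (fun x hx => h.mem x hx) isOpen_XX
    h.smooth.contDiffOn (D.smooth v) (fun x hx => hx)
  have h0 : cubeInt (pb σ (extDeriv (D.Phi v))) = 0 := by
    unfold cubeInt
    rw [setIntegral_congr_fun (g := fun _ => (0 : F)) measurableSet_Icc]
    · simp
    · intro x hx
      simp [pb, D.closed v _ (h.mem x hx)]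
  rw [h0, Fin.sum_univ_three] at key
  simp only [Fin.val_zero, pow_zero, one_smul, Fin.val_one, pow_one, neg_smul, Fin.val_two,
    even_two, Even.neg_pow, one_pow] at key
  unfold sq
  rw [sub_eq_add_neg]
  exact key.symm

/-- **equivariance** -/
theorem sq_equi (D : Loc2 V F) (k : Fin 5) (v : V) {σ : (Fin 2 → ℝ) → C6} (h : Good 2 σ)
    (hk : ∀ y ∈ Icc (0 : Fin 2 → ℝ) 1, (σ y k.succ).re < (σ y k.castSucc).re) :
    sq D v σ = sq D (D.s k v) (fun y => swL k (σ y)) := by
  unfold sq cubeInt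
  refine setIntegral_congr_fun measurableSet_Icc fun y hy => ?_
  have h1 := D.equi k v (σ y) (h.mem y hy) (hk y hy)
  have h2 : fderiv ℝ (fun y => swL k (σ y)) y = (swL k).comp (fderiv ℝ σ y) :=
    ((swL k).hasFDerivAt.comp y
      ((h.smooth.differentiable two_ne_zero) y).hasFDerivAt).fderiv
  simp only [pb, h1, h2]
  rfl

/-- a square that does not depend on the first variable -/
theorem sq_const0 (D : Loc2 V F) (v : V) {σ : (Fin 2 → ℝ) → C6} {c : ℝ → C6}
    (hc : Differentiable ℝ c) (h : ∀ y, σ y = c (y 1)) : sq D v σ = 0 := by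
  obtain rfl : σ = fun y => c (y 1) := funext h
  unfold sq cubeInt
  rw [setIntegral_congr_fun (g := fun _ => (0 : F)) measurableSet_Icc]
  · simp
  intro y _
  have h1 : HasFDerivAt (fun y : Fin 2 → ℝ => c (y 1))
      ((fderiv ℝ c (y 1)).comp (ContinuousLinearMap.proj (R := ℝ) (φ := fun _ : Fin 2 => ℝ) 1)) y :=
    (hc (y 1)).hasFDerivAt.comp y (ContinuousLinearMap.proj (R := ℝ) (φ := fun _ => ℝ) 1).hasFDerivAt
  show (D.Phi v (c (y 1))).compContinuousLinearMap _ (eb 2) = 0
  rw [h1.fderiv]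
  refine (D.Phi v (c (y 1))).map_coord_zero 0 ?_
  simp

/-- a square that does not depend on the second variable -/
theorem sq_const1 (D : Loc2 V F) (v : V) {σ : (Fin 2 → ℝ) → C6} {c : ℝ → C6}
    (hc : Differentiable ℝ c) (h : ∀ y, σ y = c (y 0)) : sq D v σ = 0 := by
  obtain rfl : σ = fun y => c (y 0) := funext h
  unfold sq cubeInt
  rw [setIntegral_congr_fun (g := fun _ => (0 : F)) measurableSet_Icc]
  · simp
  intro y _
  have h1 : HasFDerivAt (fun y : Fin 2 → ℝ => c (y 0))
      ((fderiv ℝ c (y 0)).comp (ContinuousLinearMap.proj (R := ℝ) (φ := fun _ : Fin 2 => ℝ) 0)) y :=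
    (hc (y 0)).hasFDerivAt.comp y (ContinuousLinearMap.proj (R := ℝ) (φ := fun _ => ℝ) 0).hasFDerivAt
  show (D.Phi v (c (y 0))).compContinuousLinearMap _ (eb 2) = 0
  rw [h1.fderiv]
  refine (D.Phi v (c (y 0))).map_coord_zero 1 ?_
  simp

end Vale.Agent.P273.H401
end
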