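import Vale.Agent.P273.H401.Turn
import Vale.Agent.P273.H681.CellA
import Vale.Agent.P273.H828.TubeDefs

/-!
The cells `phiT` against the round tori; the tori of size `r`.
-/

noncomputable section
namespace Vale.Agent.P273.H401

open MeasureTheory Set H681 H828

variable {V F : Type*} [AddCommGroup V] [Module ℝ V] [NormedAddCommGroup F] [NormedSpace ℝ F]

/-- the difference of the pair on the edge of a cell -/
def zc (t : ℝ) : ℂ := ⟨1 - 2 * t, -2 * bmp (1 - 2 * t)⟩

/-- from the round half circle (`l = 0`) to the edge of the cell (`l = 1`) -/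
def Hd (l t : ℝ) : ℂ := ((1 - l : ℝ) : ℂ) * zz 0 t + (l : ℂ) * zc t

/-- the disc between the round half circle and the edge of the cell, pair `k` -/
def dsc (k : Fin 5) (y : Fin 2 → ℝ) : C6 := cfg fun a => if a = k then Hd (y 0) (y 1) else 1

/-- the disc functional -/
def Dsc (D : Loc2 V F) (k : Fin 5) (v : V) : F := sq D v (dsc k)

/-- the round torus at the base configuration, pairs `j` and `k` -/
def rtor (j k : Fin 5) (y : Fin 2 → ℝ) : C6 :=
  cfg (two j k (zz 0 (y 0)) (zz 0 (y 1)) fun _ => 1)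

/-- integral over the round torus at the base configuration -/
def RT (D : Loc2 V F) (j k : Fin 5) (v : V) : F := sq D v (rtor j k)

/-- the two other pairs shrink, the pair `c` turns -/
def mmF (r : ℝ) (c : Fin 3) (y : Fin 2 → ℝ) : C6 :=
  th fun k => ((r + y 0 * (1 - r) : ℝ) : ℂ) / 2 * (if k = c then zz 0 (y 1) else 1)

/-- the corresponding integral -/
def MM (D : Loc2 V F) (r : ℝ) (c : Fin 3) (v : V) : F := sq D v (mmF r c)

theorem zz00 : zz 0 0 = 1 := by simp [zz]

theorem zz01 : zz 0 1 = -1 := by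
  have : zz 0 1 = Complex.exp (-(Real.pi * Complex.I)) := by
    unfold zz; congr 1; push_cast; ring
  rw [this, Complex.exp_neg, Complex.exp_pi_mul_I]
  norm_num

theorem zc0 : zc 0 = 1 := by
  have : bmp 1 = 0 := bmp_eq_zero (by norm_num)
  apply Complex.ext <;> simp [zc, this]

theorem zc1 : zc 1 = -1 := by
  have : bmp (-1) = 0 := bmp_eq_zero (by norm_num)
  have h : (1 : ℝ) - 2 = -1 := by norm_num
  apply Complex.ext
  · simp [zc, h]
  · simp [zc, h, this]

theorem Hd0 (l : ℝ) : Hd l 0 = 1 := by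
  simp only [Hd, zz00, zc0]; push_cast; ring

theorem Hd1 (l : ℝ) : Hd l 1 = -1 := by
  simp only [Hd, zz01, zc1]; push_cast; ring

theorem contDiff_zz0 : ContDiff ℝ 2 (fun t : ℝ => zz 0 t) := by
  unfold zz
  have h : ContDiff ℝ 2 (fun t : ℝ => (t : ℂ)) := Complex.ofRealCLM.contDiff
  exact (Complex.contDiff_exp (𝕜 := ℝ)).comp
    (contDiff_const.sub ((contDiff_const.mul h).mul contDiff_const))

theorem contDiff_zc : ContDiff ℝ 2 zc := by
  have h1 : ContDiff ℝ 2 (fun t : ℝ => 1 - 2 * t) := by fun_prop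
  have h2 : ContDiff ℝ 2 (fun t : ℝ => -2 * bmp (1 - 2 * t)) :=
    contDiff_const.mul ((bmp_contDiff.of_le (by norm_cast)).comp h1)
  have h3 : zc = fun t => ((1 - 2 * t : ℝ) : ℂ) + ((-2 * bmp (1 - 2 * t) : ℝ) : ℂ) * Complex.I := by
    funext t
    apply Complex.ext <;> simp [zc]
  rw [h3]
  exact (Complex.ofRealCLM.contDiff.comp h1).add
    ((Complex.ofRealCLM.contDiff.comp h2).mul contDiff_const)

theorem contDiff_Hd : ContDiff ℝ 2 (fun p : ℝ × ℝ => Hd p.1 p.2) := by
  have h : ContDiff ℝ 2 (fun p : ℝ × ℝ => (p.1 : ℂ)) := Complex.ofRealCLM.contDiff.comp contDiff_fst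
  have h' : ContDiff ℝ 2 (fun p : ℝ × ℝ => ((1 - p.1 : ℝ) : ℂ)) :=
    Complex.ofRealCLM.contDiff.comp (contDiff_const.sub contDiff_fst)
  exact (h'.mul (contDiff_zz0.comp contDiff_snd)).add (h.mul (contDiff_zc.comp contDiff_snd))

theorem slit_combo {x a l : ℝ} (hx : |x| ≤ 1) (ha : |a| ≤ 1) (hl : l ∈ Icc (0 : ℝ) 1) :
    |(1 - l) * x + l * a| ≤ 1 := by
  rw [abs_le] at hx ha ⊢
  constructor <;> nlinarith [hl.1, hl.2, hx.1, hx.2, ha.1, ha.2]

theorem slit_Hd {l t : ℝ} (hl : l ∈ Icc (0 : ℝ) 1) (ht : t ∈ Icc (0 : ℝ) 1) : Slit (Hd l t) := by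
  have hre : (Hd l t).re = (1 - l) * Real.cos (Real.pi * t) + l * (1 - 2 * t) := by
    simp [Hd, zz_re, zc]
  have him : (Hd l t).im = -((1 - l) * Real.sin (Real.pi * t)) - l * (2 * bmp (1 - 2 * t)) := by
    simp [Hd, zz_im, zc]; ring
  constructor
  · rw [hre]
    refine slit_combo (Real.abs_cos_le_one _) ?_ hl
    rw [abs_le]; constructor <;> linarith [ht.1, ht.2]
  · intro h0
    rw [hre] at h0
    have ht2 : t = 1 / 2 := by
      by_contra hne
      rcases lt_or_gt_of_ne hne with h | h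
      · have hc : 0 < Real.cos (Real.pi * t) :=
          Real.cos_pos_of_mem_Ioo ⟨by nlinarith [Real.pi_pos, ht.1], by nlinarith [Real.pi_pos]⟩
        rcases eq_or_lt_of_le hl.1 with h1 | h1
        · rw [← h1] at h0; simp at h0; linarith
        · nlinarith [hl.2, mul_nonneg (sub_nonneg.2 hl.2) hc.le, mul_pos h1 (by linarith :
            0 < 1 - 2 * t)]
      · have hc : Real.cos (Real.pi * t) < 0 :=
          Real.cos_neg_of_pi_div_two_lt_of_lt (by nlinarith [Real.pi_pos])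
            (by nlinarith [Real.pi_pos, ht.2])
        rcases eq_or_lt_of_le hl.1 with h1 | h1
        · rw [← h1] at h0; simp at h0; linarith
        · nlinarith [hl.2, mul_nonneg (sub_nonneg.2 hl.2) (neg_nonneg.2 hc.le), mul_pos h1
            (by linarith : 0 < 2 * t - 1)]
    rw [him, ht2]
    have e1 : Real.sin (Real.pi * (1 / 2)) = 1 := by
      rw [show Real.pi * (1 / 2) = Real.pi / 2 by ring]; exact Real.sin_pi_div_two
    have e2 : bmp (1 - 2 * (1 / 2)) = 1 := by norm_num [bmp_zero]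
    rw [e1, e2]
    linarith [hl.1, hl.2]

/-! ### the cells -/

/-- positions of the points on the cells of two pairs -/
def pos (t : Fin 5 → ℝ) : Fin 6 → ℝ :=
  ![1 + t 0, 2 - t 0 + t 1, 3 - t 1 + t 2, 4 - t 2 + t 3, 5 - t 3 + t 4, 6 - t 4]

theorem bmp_nb {x z y : ℝ} (hx : 0 ≤ x) (hy : 0 ≤ y) (h1 : x = 0 ∨ z = 0) (h2 : z = 0 ∨ y = 0) :
    bmp (-1 + 2 * z - x - y) = bmp (1 - 2 * z) := by
  by_cases hz : z = 0
  · subst hz
    rw [bmp_eq_zero, bmp_eq_zero]
    · norm_num
    · rw [show -1 + 2 * 0 - x - y = -(1 + x + y) by ring, abs_neg, le_abs]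
      left; linarith
  · have hx0 : x = 0 := h1.resolve_right hz
    have hy0 : y = 0 := h2.resolve_left hz
    subst hx0; subst hy0
    rw [show -1 + 2 * z - 0 - 0 = -(1 - 2 * z) by ring, bmp_neg]

theorem cc_pos {t : Fin 5 → ℝ} (h0 : ∀ a, 0 ≤ t a) (h1 : ∀ a, t a ≤ 1)
    (hadj : ∀ a : Fin 4, t a.castSucc = 0 ∨ t a.succ = 0) : cc (pos t) = cfg fun a => zc (t a) := by
  have a01 : t 0 = 0 ∨ t 1 = 0 := hadj 0
  have a12 : t 1 = 0 ∨ t 2 = 0 := hadj 1
  have a23 : t 2 = 0 ∨ t 3 = 0 := hadj 2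
  have a34 : t 3 = 0 ∨ t 4 = 0 := hadj 3
  have key : ∀ x z : ℝ, (x = 0 ∨ z = 0) → x ≤ 1 → z ≤ 1 → x + z ≤ 1 := by
    intro x z h hx hz
    rcases h with rfl | rfl <;> linarith
  have s01 := key _ _ a01 (h1 0) (h1 1)
  have s12 := key _ _ a12 (h1 1) (h1 2)
  have s23 := key _ _ a23 (h1 2) (h1 3)
  have s34 := key _ _ a34 (h1 3) (h1 4)
  have z0 := h0 0
  have z1 := h0 1
  have z2 := h0 2
  have z3 := h0 3
  have z4 := h0 4
  -- neighbours
  have n0 : bmp (1 + t 0 - (2 - t 0 + t 1)) = bmp (1 - 2 * t 0) := by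
    rw [← bmp_nb (x := 0) le_rfl z1 (Or.inl rfl) a01]; congr 1; ring
  have n1 : bmp (2 - t 0 + t 1 - (3 - t 1 + t 2)) = bmp (1 - 2 * t 1) := by
    rw [← bmp_nb z0 z2 a01 a12]; congr 1; ring
  have n2 : bmp (3 - t 1 + t 2 - (4 - t 2 + t 3)) = bmp (1 - 2 * t 2) := by
    rw [← bmp_nb z1 z3 a12 a23]; congr 1; ring
  have n3 : bmp (4 - t 2 + t 3 - (5 - t 3 + t 4)) = bmp (1 - 2 * t 3) := by
    rw [← bmp_nb z2 z4 a23 a34]; congr 1; ring
  have n4 : bmp (5 - t 3 + t 4 - (6 - t 4)) = bmp (1 - 2 * t 4) := by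
    rw [← bmp_nb (y := 0) z3 le_rfl a34 (Or.inr rfl)]; congr 1; ring
  have m0 : bmp (2 - t 0 + t 1 - (1 + t 0)) = bmp (1 - 2 * t 0) := by
    rw [← n0, ← bmp_neg]; congr 1; ring
  have m1 : bmp (3 - t 1 + t 2 - (2 - t 0 + t 1)) = bmp (1 - 2 * t 1) := by
    rw [← n1, ← bmp_neg]; congr 1; ring
  have m2 : bmp (4 - t 2 + t 3 - (3 - t 1 + t 2)) = bmp (1 - 2 * t 2) := by
    rw [← n2, ← bmp_neg]; congr 1; ring
  have m3 : bmp (5 - t 3 + t 4 - (4 - t 2 + t 3)) = bmp (1 - 2 * t 3) := by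
    rw [← n3, ← bmp_neg]; congr 1; ring
  have m4 : bmp (6 - t 4 - (5 - t 3 + t 4)) = bmp (1 - 2 * t 4) := by
    rw [← n4, ← bmp_neg]; congr 1; ring
  -- the others
  have far : ∀ x y : ℝ, 1 ≤ y - x → bmp (x - y) = 0 ∧ bmp (y - x) = 0 := by
    intro x y h
    refine ⟨bmp_eq_zero ?_, bmp_eq_zero ?_⟩
    · rw [le_abs]; right; linarith
    · rw [le_abs]; left; linarith
  have f02 := far (1 + t 0) (3 - t 1 + t 2) (by linarith)
  have f03 := far (1 + t 0) (4 - t 2 + t 3) (by linarith [h1 0, h1 2])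
  have f04 := far (1 + t 0) (5 - t 3 + t 4) (by linarith [h1 0, h1 3])
  have f05 := far (1 + t 0) (6 - t 4) (by linarith [h1 0, h1 4])
  have f13 := far (2 - t 0 + t 1) (4 - t 2 + t 3) (by linarith)
  have f14 := far (2 - t 0 + t 1) (5 - t 3 + t 4) (by linarith [h1 1, h1 3])
  have f15 := far (2 - t 0 + t 1) (6 - t 4) (by linarith [h1 1, h1 4])
  have f24 := far (3 - t 1 + t 2) (5 - t 3 + t 4) (by linarith)
  have f25 := far (3 - t 1 + t 2) (6 - t 4) (by linarith [h1 2, h1 4])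
  have f35 := far (4 - t 2 + t 3) (6 - t 4) (by linarith)
  funext i
  fin_cases i
  · apply Complex.ext
    · simp [cc, cfg, pos, zc]
    · simp [cc, cfg, pos, zc, hh, Fin.sum_univ_six, n0, f02.1, f03.1, f04.1, f05.1]
  · apply Complex.ext
    · simp [cc, cfg, pos, zc]
    · simp [cc, cfg, pos, zc, hh, Fin.sum_univ_six, m0, n1, f13.1, f14.1, f15.1]
  · apply Complex.ext
    · simp [cc, cfg, pos, zc]
    · simp [cc, cfg, pos, zc, hh, Fin.sum_univ_six, m1, n2, f02.2, f24.1, f25.1]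
  · apply Complex.ext
    · simp [cc, cfg, pos, zc]
    · simp [cc, cfg, pos, zc, hh, Fin.sum_univ_six, m2, n3, f03.2, f13.2, f35.1]
  · apply Complex.ext
    · simp [cc, cfg, pos, zc]
    · simp [cc, cfg, pos, zc, hh, Fin.sum_univ_six, m3, n4, f04.2, f14.2, f24.2]
  · apply Complex.ext
    · simp [cc, cfg, pos, zc]
    · simp [cc, cfg, pos, zc, hh, Fin.sum_univ_six, m4, f05.2, f15.2, f25.2, f35.2]

/-- equality on the open square is enough -/
theorem sq_congr_open (D : Loc2 V F) (v : V) {σ τ : (Fin 2 → ℝ) → C6}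
    (h : ∀ y ∈ Set.pi univ (fun _ : Fin 2 => Ioo (0 : ℝ) 1), σ y = τ y) :
    sq D v σ = sq D v τ := by
  have hae : Icc (0 : Fin 2 → ℝ) 1 =ᵐ[volume] Set.pi univ (fun _ : Fin 2 => Ioo (0 : ℝ) 1) :=
    (Measure.univ_pi_Ioo_ae_eq_Icc (f := (0 : Fin 2 → ℝ)) (g := 1)).symm
  have hop : IsOpen (Set.pi univ (fun _ : Fin 2 => Ioo (0 : ℝ) 1)) :=
    isOpen_set_pi finite_univ fun _ _ => isOpen_Ioo
  unfold sq cubeInt
  rw [setIntegral_congr_set hae, setIntegral_congr_set hae]
  refine setIntegral_congr_fun hop.measurableSet fun y hy => ?_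
  have he : σ =ᶠ[nhds y] τ := by
    filter_upwards [hop.mem_nhds hy] with z hz using h z hz
  show (D.Phi v (σ y)).compContinuousLinearMap (fderiv ℝ σ y) (eb 2) =
    (D.Phi v (τ y)).compContinuousLinearMap (fderiv ℝ τ y) (eb 2)
  rw [he.fderiv_eq, h y hy]

theorem iso_two {j k : Fin 5} (hjk : j.1 + 2 ≤ k.1) {c : Fin 5 → ℂ} (x y : ℂ)
    (hc : ∀ a, (a.1 + 1 = j.1 ∨ j.1 + 1 = a.1 ∨ a.1 + 1 = k.1 ∨ k.1 + 1 = a.1) → c a = 1)
    (hi : Iso c) : Iso (two j k x y c) := by
  intro a
  have v1 : a.castSucc.1 = a.1 := by simp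
  have v2 : a.succ.1 = a.1 + 1 := by simp
  by_cases h1 : a.castSucc = j
  · right
    have n1 : a.succ ≠ j := by intro e; rw [← h1] at e; simp [Fin.ext_iff] at e
    have n2 : a.succ ≠ k := by intro e; rw [← h1, ← e, v1, v2] at hjk; omega
    simp only [two, n1, n2, if_false]
    exact hc _ (by rw [← h1, v1, v2]; right; left; rfl)
  by_cases h2 : a.succ = j
  · left
    have n2 : a.castSucc ≠ k := by intro e; rw [← h2, ← e, v1, v2] at hjk; omega
    simp only [two, h1, n2, if_false]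
    exact hc _ (by rw [← h2, v1, v2]; left; rfl)
  by_cases h3 : a.castSucc = k
  · right
    have n2 : a.succ ≠ k := by intro e; rw [← h3] at e; simp [Fin.ext_iff] at e
    simp only [two, h2, n2, if_false]
    exact hc _ (by rw [← h3, v1, v2]; right; right; right; rfl)
  by_cases h4 : a.succ = k
  · left
    simp only [two, h1, h3, if_false]
    exact hc _ (by rw [← h4, v1, v2]; right; right; left; rfl)
  simp only [two, h1, h2, h3, h4, if_false]
  exact hi a

theorem iso_one : Iso fun _ => (1 : ℂ) := fun _ => Or.inl rfl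

theorem turnR {j k : Fin 5} (hjk : j.1 + 2 ≤ k.1) :
    Turn j k (fun p => Hd p.1 p.2) (fun _ _ => 1) where
  hjk := hjk
  hA := contDiff_Hd
  hC := fun _ => contDiff_const
  hA1 := fun l => by simp only [Hd0, Hd1]
  hpos := fun l _ => by simp only [Hd0]; norm_num
  hAs := fun l hl s hs => slit_Hd hl hs
  hCs := fun _ _ _ => slit_one
  hiso := fun _ x y => iso_two hjk x y (fun _ _ => rfl) iso_one

theorem Hd_zero (t : ℝ) : Hd 0 t = zz 0 t := by simp [Hd]
theorem Hd_one (t : ℝ) : Hd 1 t = zc t := by simp [Hd]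

theorem phiT_eq (D : Loc2 V F) {j k : Fin 5} (hjk : j.1 + 2 ≤ k.1) (v : V) :
    phiT D j k v = sq D v (fun y => cfg (two j k (zc (y 0)) (zc (y 1)) fun _ => 1)) := by
  unfold phiT Q Qd
  refine sq_congr_open D v fun y hy => ?_
  have y0 : y 0 ∈ Ioo (0 : ℝ) 1 := hy 0 (mem_univ 0)
  have y1 : y 1 ∈ Ioo (0 : ℝ) 1 := hy 1 (mem_univ 1)
  have hkj : k ≠ j := by intro e; rw [e] at hjk; omega
  set t : Fin 5 → ℝ := fun a => if a = j then y 0 else if a = k then y 1 else 0 with ht
  have hp : (fun i => ((bs i : ℤ) : ℝ)) + y 0 • (fun i => ((rt j i : ℤ) : ℝ)) +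
      y 1 • (fun i => ((rt k i : ℤ) : ℝ)) = pos t := by
    have hj := j.2
    have hk := k.2
    fin_cases j <;> fin_cases k <;> first
      | (exfalso; revert hjk; decide)
      | (funext i; fin_cases i <;> simp [ht, pos, bs, rt] <;> ring)
  have h1 := cc_pos (t := t) (fun a => by
      simp only [ht]; split_ifs
      · exact y0.1.le
      · exact y1.1.le
      · exact le_rfl) (fun a => by
      simp only [ht]; split_ifs
      · exact y0.2.le
      · exact y1.2.le
      · exact zero_le_one) (fun a => by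
      have v1 : a.castSucc.1 = a.1 := by simp
      have v2 : a.succ.1 = a.1 + 1 := by simp
      by_cases h1 : a.castSucc = j
      · right
        have n1 : a.succ ≠ j := by intro e; rw [← h1] at e; simp [Fin.ext_iff] at e
        have n2 : a.succ ≠ k := by intro e; rw [← h1, ← e, v1, v2] at hjk; omega
        simp [ht, n1, n2]
      by_cases h2 : a.succ = j
      · left
        have n2 : a.castSucc ≠ k := by intro e; rw [← h2, ← e, v1, v2] at hjk; omega
        simp [ht, h1, n2]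
      by_cases h3 : a.castSucc = k
      · right
        have n2 : a.succ ≠ k := by intro e; rw [← h3] at e; simp [Fin.ext_iff] at e
        simp [ht, h2, n2]
      left
      simp [ht, h1, h3])
  show cc _ = _
  have h2 : cfg (fun a => zc (t a)) = cfg (two j k (zc (y 0)) (zc (y 1)) fun _ => 1) := by
    congr 1
    funext a
    simp only [ht, two]
    split_ifs
    · rfl
    · rfl
    · exact zc0
  rw [← h2, ← h1, ← hp]

/-- **the cell of two commuting generators against the round torus** -/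
theorem phiT_round (D : Loc2 V F) {j k : Fin 5} (hjk : j.1 + 2 ≤ k.1) (v : V) :
    phiT D j k v = RT D j k v + Dsc D j (v - D.s k v) - Dsc D k (v - D.s j v) := by
  have hkj : k ≠ j := by intro e; rw [e] at hjk; omega
  have key := (turnR hjk).stokes D v
  have e1 : (fun y : Fin 2 → ℝ => Turn.conf j k (fun p => Hd p.1 p.2) (fun _ _ => 1) 1 (y 0) (y 1)) =
      fun y => cfg (two j k (zc (y 0)) (zc (y 1)) fun _ => 1) := by
    funext y; simp only [Turn.conf, Hd_one]
  have e2 : (fun y : Fin 2 → ℝ => Turn.conf j k (fun p => Hd p.1 p.2) (fun _ _ => 1) 0 (y 0) (y 1)) =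
      rtor j k := by
    funext y; simp only [Turn.conf, Hd_zero, rtor]
  have e3 : (fun y : Fin 2 → ℝ => Turn.conf j k (fun p => Hd p.1 p.2) (fun _ _ => 1) (y 0) 0 (y 1)) =
      dsc k := by
    funext y
    simp only [Turn.conf, Hd0, dsc]
    congr 1
    funext a
    simp only [two]
    split_ifs with h1 h2
    · exact absurd (h2.symm.trans h1) hkj
    · rfl
    · rfl
    · rfl
  have e4 : (fun y : Fin 2 → ℝ => Turn.conf j k (fun p => Hd p.1 p.2) (fun _ _ => 1) (y 0) (y 1) 0) =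
      dsc j := by
    funext y
    simp only [Turn.conf, Hd0, dsc]
    congr 1
    funext a
    simp only [two]
    split_ifs <;> rfl
  rw [e1, e2, e3, e4, ← phiT_eq D hjk] at key
  have hn : ∀ (a : Fin 5) (w : V), Dsc D a (-w) = -Dsc D a w := fun a w => sq_neg D w
  have h1 : Dsc D j (v - D.s k v) = -Dsc D j (D.s k v - v) := by rw [← hn]; congr 1; abel
  have h2 : Dsc D k (v - D.s j v) = -Dsc D k (D.s j v - v) := by rw [← hn]; congr 1; abel
  rw [h1, h2]
  have key' : phiT D j k v = RT D j k v + (Dsc D k (D.s j v - v) - Dsc D j (D.s k v - v)) := by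
    rw [← sub_eq_iff_eq_add']; exact key
  rw [key']
  abel

/-! ### scaling of the tori -/

/-- the generators of the three pairs of the theta configuration -/
def kk : Fin 3 → Fin 5 := ![0, 2, 4]

/-- the third pair -/
def rest (R : ℝ) : Fin 5 → ℂ := fun a => if a = 1 ∨ a = 3 then 1 else (R : ℂ)

theorem th_two (R : ℝ) {i j : Fin 3} (hij : i < j) (x y : ℂ) :
    th (fun k => (R : ℂ) / 2 * (if k = i then x else if k = j then y else 1)) =
      cfg (two (kk i) (kk j) (R * x) (R * y) (rest R)) := by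
  fin_cases i <;> fin_cases j <;> first
    | (exfalso; revert hij; decide)
    | (funext a; fin_cases a <;> simp [th, cfg, two, kk, rest] <;> ring)

theorem kk_lt {i j : Fin 3} (hij : i < j) : (kk i).1 + 2 ≤ (kk j).1 := by
  revert i j; decide

/-- the scale -/
def sc (r l : ℝ) : ℝ := r + l * (1 - r)

theorem sc_mem {r l : ℝ} (hr : r ∈ Ioc (0 : ℝ) 1) (hl : l ∈ Icc (0 : ℝ) 1) :
    sc r l ∈ Ioc (0 : ℝ) 1 := by
  unfold sc
  constructor
  · nlinarith [hr.1, hr.2, hl.1, hl.2]
  · nlinarith [hr.1, hr.2, hl.1, hl.2]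

theorem slit_mul {R : ℝ} (hR : R ∈ Ioc (0 : ℝ) 1) {z : ℂ} (hz : Slit z) : Slit ((R : ℂ) * z) := by
  refine ⟨?_, fun h => ?_⟩
  · rw [Complex.re_ofReal_mul, abs_mul, abs_of_pos hR.1]
    nlinarith [hz.1, hR.2, abs_nonneg z.re, hR.1]
  · rw [Complex.re_ofReal_mul] at h
    have : z.re = 0 := by
      rcases mul_eq_zero.1 h with h | h
      · exact absurd h hR.1.ne'
      · exact h
    rw [Complex.im_ofReal_mul]
    exact mul_neg_of_pos_of_neg hR.1 (hz.2 this)

theorem slit_zz {s : ℝ} (hs : s ∈ Icc (0 : ℝ) 1) : Slit (zz 0 s) := by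
  have := slit_Hd (l := 0) (t := s) (by simp) hs
  rwa [Hd_zero] at this

theorem iso_rest (R : ℝ) : Iso (rest R) := by
  intro a
  fin_cases a <;> simp [rest]

theorem turnS {r : ℝ} (hr : r ∈ Ioc (0 : ℝ) 1) {i j : Fin 3} (hij : i < j) :
    Turn (kk i) (kk j) (fun p => (sc r p.1 : ℂ) * zz 0 p.2) (fun l => rest (sc r l)) where
  hjk := kk_lt hij
  hA := by
    have h : ContDiff ℝ 2 (fun p : ℝ × ℝ => ((sc r p.1 : ℝ) : ℂ)) := by
      refine Complex.ofRealCLM.contDiff.comp ?_
      exact contDiff_const.add (contDiff_fst.mul contDiff_const)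
    exact h.mul (contDiff_zz0.comp contDiff_snd)
  hC := fun a => by
    have h : ContDiff ℝ 2 (fun l : ℝ => ((sc r l : ℝ) : ℂ)) := by
      refine Complex.ofRealCLM.contDiff.comp ?_
      exact contDiff_const.add (contDiff_id.mul contDiff_const)
    unfold rest
    split_ifs
    · exact contDiff_const
    · exact h
  hA1 := fun l => by simp only [zz00, zz01]; ring
  hpos := fun l hl => by
    simp only [zz00, mul_one, Complex.ofReal_re]
    exact (sc_mem hr hl).1
  hAs := fun l hl s hs => slit_mul (sc_mem hr hl) (slit_zz hs)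
  hCs := fun l hl a => by
    unfold rest
    split_ifs
    · exact slit_one
    · have := slit_mul (sc_mem hr hl) slit_one
      rwa [mul_one] at this
  hiso := fun l x y => by
    refine iso_two (kk_lt hij) x y (fun a ha => ?_) (iso_rest _)
    fin_cases i <;> fin_cases j <;> fin_cases a <;> simp_all [rest, kk]

theorem torF_eq (r : ℝ) {i j : Fin 3} (hij : i < j) (y : Fin 2 → ℝ) :
    torF r i j y = cfg (two (kk i) (kk j) (r * zz 0 (y 0)) (r * zz 0 (y 1)) (rest r)) :=
  th_two r hij _ _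

/-- **scaling of the tori** -/
theorem tor_scale (D : Loc2 V F) {r : ℝ} (hr : r ∈ Ioc (0 : ℝ) 1) {i j : Fin 3} (hij : i < j)
    (v : V) : TOR D 1 i j v - TOR D r i j v =
      MM D r j (D.s (kk i) v - v) - MM D r i (D.s (kk j) v - v) := by
  have key := (turnS hr hij).stokes D v
  have hne : j ≠ i := hij.ne'
  have e1 : (fun y : Fin 2 → ℝ => Turn.conf (kk i) (kk j)
      (fun p => (sc r p.1 : ℂ) * zz 0 p.2) (fun l => rest (sc r l)) 1 (y 0) (y 1)) = torF 1 i j := by
    funext y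
    rw [torF_eq 1 hij]
    simp only [Turn.conf, sc]
    congr 2 <;> push_cast <;> ring_nf
  have e2 : (fun y : Fin 2 → ℝ => Turn.conf (kk i) (kk j)
      (fun p => (sc r p.1 : ℂ) * zz 0 p.2) (fun l => rest (sc r l)) 0 (y 0) (y 1)) = torF r i j := by
    funext y
    rw [torF_eq r hij]
    simp only [Turn.conf, sc]
    congr 2 <;> push_cast <;> ring_nf
  have e3 : (fun y : Fin 2 → ℝ => Turn.conf (kk i) (kk j)
      (fun p => (sc r p.1 : ℂ) * zz 0 p.2) (fun l => rest (sc r l)) (y 0) 0 (y 1)) = mmF r j := by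
    funext y
    have h1 : (fun k : Fin 3 => ((sc r (y 0) : ℝ) : ℂ) / 2 * (if k = j then zz 0 (y 1) else 1)) =
        fun k => ((sc r (y 0) : ℝ) : ℂ) / 2 * (if k = i then 1 else if k = j then zz 0 (y 1) else 1)
        := by
      funext k
      by_cases hk : k = i
      · subst hk; simp [hne.symm]
      · simp [hk]
    have h2 : mmF r j y = th (fun k : Fin 3 => ((sc r (y 0) : ℝ) : ℂ) / 2 *
        (if k = j then zz 0 (y 1) else 1)) := rfl
    rw [h2, h1, th_two _ hij]
    simp only [Turn.conf, zz00]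
  have e4 : (fun y : Fin 2 → ℝ => Turn.conf (kk i) (kk j)
      (fun p => (sc r p.1 : ℂ) * zz 0 p.2) (fun l => rest (sc r l)) (y 0) (y 1) 0) = mmF r i := by
    funext y
    have h1 : (fun k : Fin 3 => ((sc r (y 0) : ℝ) : ℂ) / 2 * (if k = i then zz 0 (y 1) else 1)) =
        fun k => ((sc r (y 0) : ℝ) : ℂ) / 2 * (if k = i then zz 0 (y 1) else if k = j then 1 else 1)
        := by
      funext k
      by_cases hk : k = i
      · simp [hk]
      · simp [hk]
    have h2 : mmF r i y = th (fun k : Fin 3 => ((sc r (y 0) : ℝ) : ℂ) / 2 *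
        (if k = i then zz 0 (y 1) else 1)) := rfl
    rw [h2, h1, th_two _ hij]
    simp only [Turn.conf, zz00]
  rw [e1, e2, e3, e4] at key
  exact key

/-- the round torus at the base configuration is the torus of size `1` -/
theorem RT_eq_TOR (D : Loc2 V F) {i j : Fin 3} (hij : i < j) (v : V) :
    RT D (kk i) (kk j) v = TOR D 1 i j v := by
  refine sq_congr D v (funext fun y => ?_)
  rw [torF_eq 1 hij]
  unfold rtor
  congr 1
  have : rest 1 = fun _ => 1 := by
    funext a; unfold rest; split_ifs <;> simp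
  rw [this]
  simp

end Vale.Agent.P273.H401
end
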