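import Vale.Agent.P273.H401.NkFam
import Vale.Agent.P273.H996.NeckEst
import Vale.Agent.P273.H595.NeckEul
import Vale.Agent.P273.H339.Node2
import Vale.Agent.P273.H225.Nk
import Vale.Agent.P273.H580.The

/-!
# P273, row ASY1, item N1 (helper401): the flat bounds in the neck

The final assembly: `neckF : NeckF theFlatFam`.
-/

noncomputable section

namespace Vale.Agent.P273.H401.Nk

open Set Filter Complex
open H681 (C6 XX)
open H95 (IsCl)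
open H973 (On1)
open H339 (En dn Xn Yn bn Zn)
open H598 (lg HH GG NB NB2 bb DN c0 P0)
open H598.Sol (dot)
open H598.Sol.Dat (xs vs mu gaL Bds Sz)
open H580 (fl mkA AX theFlatFam)
open H730 (bd bw xn nv yl alc Adm InNeck)
open scoped Topology ContDiff Real

variable {k : Fin 5} {V : Set C6} {ρ R C A c : ℝ} {q₀ : C6} {h : (DN k ρ).Ok ((0 : ℂ), q₀)}
  {p : En} {ξ : Fin 6 → ℝ}

lemma lE_re (p : En) : (lE p).re = Real.log ‖Xn p‖ := by
  rw [H339.norm_Xn, Real.log_exp]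
  unfold lE
  rw [add_re]

lemma abs_phE (p : En) : |phE p| ≤ 6 := H598.lg_im_le _

lemma norm_dn_pos (p : En) : 0 < ‖dn p‖ := norm_pos_iff.2 (Complex.exp_ne_zero _)

lemma norm_Xn_pos (p : En) : 0 < ‖Xn p‖ := norm_pos_iff.2 (Complex.exp_ne_zero _)

lemma norm_Yn_pos (p : En) : 0 < ‖Yn p‖ := norm_pos_iff.2 (Complex.exp_ne_zero _)

/-- **arbitrary directions** -/
theorem Pt.est_T (hp : Pt k ρ q₀ h A p) (hF : H931.FBd k V ρ q₀ R C) (hq : ‖p.1.1 - q₀‖ ≤ R)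
    (hc : 0 < c) (hc1 : c ≤ 1) (hcR : c ≤ R) (hX : ‖Xn p‖ ≤ c) (hY : ‖Yn p‖ ≤ c)
    (hy : 1 ≤ yl c (dn p)) (hξ : IsCl ξ) (δ : C6) (lX lY : ℂ) :
    |fderiv ℝ (H339.Un (AX ξ) k ρ) p ((δ, (lX + lY) / 2), (lX - lY) / 2)| ≤
        450 * A ^ 3 * (1 + 4 * C) * ‖ξ‖ * (‖δ‖ + ‖lX‖ + ‖lY‖) ∧
      (ξ k.castSucc = ξ k.succ →
        |fderiv ℝ (H339.Un (AX ξ) k ρ) p ((δ, (lX + lY) / 2), (lX - lY) / 2)| ≤
          450 * A ^ 3 * (1 + 4 * C) * ‖ξ‖ *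
            (‖δ‖ + (‖Xn p‖ + (yl c (dn p))⁻¹) * ‖lX‖ + (‖Yn p‖ + (yl c (dn p))⁻¹) * ‖lY‖)) ∧
      (ξ k.castSucc = 1 → ξ k.succ = 1 → (∀ j, j ≠ k.castSucc → j ≠ k.succ → ξ j = 0) →
        |fderiv ℝ (H339.Un (AX ξ) k ρ) p ((δ, (lX + lY) / 2), (lX - lY) / 2)| ≤
          450 * A ^ 3 * (1 + 4 * C) * (yl c (dn p))⁻¹ * (‖δ‖ + ‖lX‖ + ‖lY‖)) := by
  obtain ⟨F', dF, hCF, hF'⟩ := exists_fE hF hq (hX.trans hcR) (hY.trans hcR)
  obtain ⟨U', dU, hU⟩ := H996.NeckEst.est_neck (p := pE) (M := mE) (φ := phE) (L := lE)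
    (F := fE k ρ) (t := p) (h := h) (d := dn p) hp.bds ξ hp.big (abs_phE p) (hasFDerivAt_pE p)
    (hasFDerivAt_mE p) (hasFDerivAt_phE hp.sl) (hasFDerivAt_lE p) dF hCF hc hc1
    (Complex.exp_ne_zero _) (mE_eq p) (H339.Xn_mul_Yn p) hX hY hy (lE_re p)
  rw [hp.fderiv_eq hξ dU]
  refine hU _ ‖δ‖ lX lY (norm_nonneg _) ?_ ?_ rfl rfl (hF' δ lX lY)
  · show ‖(dn p • ((lX + lY) / 2), δ)‖ ≤ ‖δ‖ + ‖dn p‖ * ‖(lX + lY) / 2‖
    rw [Prod.norm_def]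
    refine max_le ?_ ?_
    · rw [norm_smul]
      have := norm_nonneg δ
      linarith
    · have : 0 ≤ ‖dn p‖ * ‖(lX + lY) / 2‖ := by positivity
      show ‖δ‖ ≤ ‖δ‖ + ‖dn p‖ * ‖(lX + lY) / 2‖
      linarith
  · show (lX + lY) / 2 + (lX - lY) / 2 = lX
    ring

/-- **the Euler direction** -/
theorem Pt.est_E (hp : Pt k ρ q₀ h A p) (hF : H931.FBd k V ρ q₀ R C) (hq : ‖p.1.1 - q₀‖ ≤ R)
    (hc : 0 < c) (hc1 : c ≤ 1) (hcR : c ≤ R) (hX : ‖Xn p‖ ≤ c) (hY : ‖Yn p‖ ≤ c)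
    (hy : 1 ≤ yl c (dn p)) (hξ : IsCl ξ) {lX lY : ℂ}
    (hlX : lX = (((yl c (dn p))⁻¹ * Real.log (‖Xn p‖ / c) : ℝ) : ℂ))
    (hlY : lY = (((yl c (dn p))⁻¹ * Real.log (‖Yn p‖ / c) : ℝ) : ℂ)) :
    |fderiv ℝ (H339.Un (AX ξ) k ρ) p (((0 : C6), (lX + lY) / 2), (lX - lY) / 2)| ≤
        H595.Eul.BE A (8 * C) (Real.log c) * ‖ξ‖ * (yl c (dn p))⁻¹ ∧
      (ξ k.castSucc = 1 → ξ k.succ = 1 → (∀ j, j ≠ k.castSucc → j ≠ k.succ → ξ j = 0) →
        |fderiv ℝ (H339.Un (AX ξ) k ρ) p (((0 : C6), (lX + lY) / 2), (lX - lY) / 2)| ≤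
          H595.Eul.BE A (8 * C) (Real.log c) * ((yl c (dn p))⁻¹) ^ 2) := by
  obtain ⟨F', dF, hCF, hF'⟩ := exists_fE hF hq (hX.trans hcR) (hY.trans hcR)
  have hd0 := norm_dn_pos p
  have hX0 := norm_Xn_pos p
  have hY0 := norm_Yn_pos p
  set y := yl c (dn p) with hydef
  have hy0 : 0 < y := by linarith
  have hyM : y = 2 * (Real.log c + mE p) := by
    rw [mE_eq, hydef]
    unfold yl
    rw [Real.log_div hc.ne' hd0.ne']
    ring
  have hXYn : ‖Xn p‖ * ‖Yn p‖ = ‖dn p‖ ^ 2 := by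
    rw [← norm_mul, H339.Xn_mul_Yn, norm_pow]
  have hlog : Real.log ‖Xn p‖ + Real.log ‖Yn p‖ = -(2 * mE p) := by
    rw [← Real.log_mul hX0.ne' hY0.ne', hXYn, Real.log_pow, mE_eq]
    push_cast
    ring
  have hlXc : Real.log ‖Xn p‖ ≤ Real.log c := Real.log_le_log hX0 hX
  have hlYc : Real.log ‖Yn p‖ ≤ Real.log c := Real.log_le_log hY0 hY
  have hLM : |(lE p).re + mE p| ≤ y / 2 := by
    rw [lE_re, abs_le]
    constructor <;> linarith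
  have hsum : (lX + lY) / 2 = ((-(1 / 2) : ℝ) : ℂ) := by
    rw [hlX, hlY, ← ofReal_add]
    have : y⁻¹ * Real.log (‖Xn p‖ / c) + y⁻¹ * Real.log (‖Yn p‖ / c) = -1 := by
      rw [Real.log_div hX0.ne' hc.ne', Real.log_div hY0.ne' hc.ne', ← mul_add]
      have e : Real.log ‖Xn p‖ - Real.log c + (Real.log ‖Yn p‖ - Real.log c) = -y := by
        rw [hyM]
        linarith
      rw [e]
      field_simp
    rw [this]
    push_cast
    ring
  set w : En := (((0 : C6), (lX + lY) / 2), (lX - lY) / 2) with hw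
  have hexp : Real.exp (-y / 2) = ‖dn p‖ / c := by
    have e : -y / 2 = Real.log (‖dn p‖ / c) := by
      rw [hydef]
      unfold yl
      rw [Real.log_div hc.ne' hd0.ne', Real.log_div hd0.ne' hc.ne']
      ring
    rw [e, Real.exp_log (by positivity)]
  have hp' : ‖((dn p • prL).prod prQ : En →L[ℝ] ℂ × C6) w‖ ≤ c * Real.exp (-y / 2) := by
    rw [hexp]
    show ‖(dn p • ((lX + lY) / 2), (0 : C6))‖ ≤ _
    have e1 : c * (‖dn p‖ / c) = ‖dn p‖ := by field_simp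
    rw [e1, Prod.norm_def, hsum]
    refine max_le ?_ ?_
    · rw [norm_smul, Complex.norm_real, Real.norm_eq_abs]
      norm_num
      linarith
    · show ‖(0 : C6)‖ ≤ _
      rw [norm_zero]
      exact hd0.le
  have hM' : (-(reCLM.comp prL) : En →L[ℝ] ℝ) w = 1 / 2 := by
    show -((lX + lY) / 2).re = 1 / 2
    rw [hsum, ofReal_re]
    norm_num
  have hφ' : (imCLM.comp prL : En →L[ℝ] ℝ) w = 0 := by
    show ((lX + lY) / 2).im = 0
    rw [hsum, ofReal_im]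
  have hL' : (prL + prZ : En →L[ℝ] ℂ) w = ((y⁻¹ * ((lE p).re - Real.log c) : ℝ) : ℂ) := by
    show (lX + lY) / 2 + (lX - lY) / 2 = _
    rw [lE_re, ← Real.log_div hX0.ne' hc.ne', ← hlX]
    ring
  have hC : 0 ≤ C := hF.C0
  have hCF8 : ‖fE k ρ p‖ ≤ 8 * C := by linarith
  have hF8 : ‖F' w‖ ≤ 8 * C * y⁻¹ := by
    refine (hF' 0 lX lY).trans ?_
    rw [norm_zero, zero_add]
    have a1 : ‖Xn p‖ * ‖lX‖ ≤ c * y⁻¹ := by
      rw [hlX, Complex.norm_real, Real.norm_eq_abs]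
      exact H595.Eul.mul_log_le hX0 hX hy0
    have a2 : ‖Yn p‖ * ‖lY‖ ≤ c * y⁻¹ := by
      rw [hlY, Complex.norm_real, Real.norm_eq_abs]
      exact H595.Eul.mul_log_le hY0 hY hy0
    have a3 : c * y⁻¹ ≤ 1 * y⁻¹ := mul_le_mul_of_nonneg_right hc1 (inv_pos.2 hy0).le
    have a4 : ‖Xn p‖ * ‖lX‖ + ‖Yn p‖ * ‖lY‖ ≤ 2 * y⁻¹ := by linarith
    calc 4 * C * (‖Xn p‖ * ‖lX‖ + ‖Yn p‖ * ‖lY‖) ≤ 4 * C * (2 * y⁻¹) :=
          mul_le_mul_of_nonneg_left a4 (by positivity)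
      _ = _ := by ring
  refine ⟨?_, fun h0 h1 h2 => ?_⟩
  · obtain ⟨U', dU, hU⟩ := H595.Eul.est_E0 (p := pE) (M := mE) (φ := phE) (L := lE)
      (F := fE k ρ) (t := p) (h := h) (ξ := ξ) hp.bds hp.big (abs_phE p) (hasFDerivAt_pE p)
      (hasFDerivAt_mE p) (hasFDerivAt_phE hp.sl) (hasFDerivAt_lE p) dF (w := w) hc hc1 hy hyM
      hLM hp' hM' hφ' hL' hCF8 hF8
    rw [hp.fderiv_eq hξ dU]
    exact hU
  · obtain ⟨U', dU, hU⟩ := H595.Eul.est_E2 (p := pE) (M := mE) (φ := phE) (L := lE)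
      (F := fE k ρ) (t := p) (h := h) (ξ := ξ) hp.bds h0 h1 h2 hp.big (abs_phE p)
      (hasFDerivAt_pE p) (hasFDerivAt_mE p) (hasFDerivAt_phE hp.sl) (hasFDerivAt_lE p) dF
      (w := w) hc hc1 hy hyM hLM hp' hM' hφ' hL' hCF8 hF8
    rw [hp.fderiv_eq hξ dU]
    exact hU

lemma alc_self (k : Fin 5) : alc k k.castSucc = 1 ∧ alc k k.succ = 1 ∧
    ∀ j, j ≠ k.castSucc → j ≠ k.succ → alc k j = 0 := by
  refine ⟨by simp [alc], by simp [alc], fun j h0 h1 => by simp [alc, h0, h1]⟩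

/-- **N1: the flat bounds in the neck** -/
theorem neckF : H225.NeckF theFlatFam := by
  intro k q₀ hq₀
  obtain ⟨V, ρ, A, r, hNB, hqV, hok, hr, hrρ, hball, hBds, hsol⟩ := H598.exists_node k hq₀
  obtain ⟨R, C, hFB⟩ := H931.exists_FBd hNB.toNB hqV
  have hA1 : 1 ≤ A := (hBds 0 q₀ (by rw [norm_zero]; exact hr) (Metric.mem_ball_self hr)).A1
  have hR := hFB.R0
  have hρ := hNB.toNB.pos
  refine ⟨Metric.ball q₀ (min r R), Metric.ball_mem_nhds _ (lt_min hr hR),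
    min (min R 1) (ρ / 2), lt_min (lt_min hR one_pos) (by linarith), ?_⟩
  intro c hc hcc
  have hcR : c ≤ R := hcc.trans ((min_le_left _ _).trans (min_le_left _ _))
  have hc1 : c ≤ 1 := hcc.trans ((min_le_left _ _).trans (min_le_right _ _))
  have hcρ : c < ρ := lt_of_le_of_lt (hcc.trans (min_le_right _ _)) (by linarith)
  have hC0 := hFB.C0
  set B1 := 450 * A ^ 3 * (1 + 4 * C) with hB1
  set B2 := H595.Eul.BE A (8 * C) (Real.log c) with hB2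
  have hB1p : 0 < B1 := by positivity
  have hB2p : 0 < B2 := H595.Eul.BE_pos hA1 (by positivity)
  refine ⟨1 + 4 * A + 2 * |Real.log r|, B1 + B2, by positivity, by positivity, ?_⟩
  intro q d hAdm X Y v hN
  obtain ⟨hqU, hqX, hd, hlen, hbX⟩ := hAdm
  obtain ⟨hXY, hX, hY, hv⟩ := hN
  obtain ⟨p, rfl, rfl, rfl, rfl⟩ := H339.exists_model hd hXY q
  have hlc : Real.log c ≤ 0 := Real.log_nonpos hc.le hc1
  have hd0 := norm_dn_pos p
  have hyl : yl c (dn p) = 2 * (Real.log c - Real.log ‖dn p‖) := by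
    unfold yl
    rw [Real.log_div hc.ne' hd0.ne']
  have hyl1 : 1 ≤ yl c (dn p) := by
    have := abs_nonneg (Real.log r)
    linarith
  have hbig : 2 * A < -Real.log ‖dn p‖ := by
    have := abs_nonneg (Real.log r)
    linarith
  have hdr : ‖dn p‖ < r := by
    have h1 := neg_abs_le (Real.log r)
    have h2 : Real.log ‖dn p‖ < Real.log r := by linarith
    exact (Real.log_lt_log_iff hd0 hr).1 h2
  have hqr : p.1.1 ∈ Metric.ball q₀ r :=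
    Metric.ball_subset_ball (min_le_left _ _) hqU
  have hqR : ‖p.1.1 - q₀‖ ≤ R := by
    have := Metric.mem_ball.1 hqU
    rw [dist_eq_norm] at this
    exact (this.trans_le (min_le_right _ _)).le
  -- the local solution
  have hPt : Pt k ρ q₀ hok A p := by
    refine ⟨hBds _ _ hdr hqr, by rw [mE_eq]; exact hbig.le, H598.neg_mem_Sl hbX, ?_⟩
    have o1 : ∀ᶠ w : En in 𝓝 p, ‖dn w‖ < r :=
      ((hasFDerivAt_dn p).continuousAt.norm).eventually_lt continuousAt_const hdr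
    have o2 : ∀ᶠ w : En in 𝓝 p, w.1.1 ∈ Metric.ball q₀ r :=
      (prQ.continuous.continuousAt (x := p)).eventually_mem (Metric.isOpen_ball.mem_nhds hqr)
    have o3 : ∀ᶠ w : En in 𝓝 p, bn k w ∈ XX :=
      ((H339.contDiff_bn k).continuous.continuousAt (x := p)).eventually_mem
        (H580.isOpen_XO.mem_nhds hbX)
    have o4 : ∀ᶠ w : En in 𝓝 p, 2 * A < -Real.log ‖dn w‖ := by
      have e1 : ContinuousAt (fun w : En => -Real.log ‖dn w‖) p := by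
        have e2 : (fun w : En => -Real.log ‖dn w‖) = mE := funext fun w => (mE_eq w).symm
        rw [e2]
        exact (hasFDerivAt_mE p).continuousAt
      exact continuousAt_const.eventually_lt e1 hbig
    filter_upwards [o1, o2, o3, o4] with w h1 h2 h3 h4
    intro ξ hξ
    exact hsol (dn w) w.1.1 h1 h2 h3 h4.le ξ hξ
  have hff : v ^ 2 = H214.ff (bd k p.1.1 (dn p), xn k p.1.1 (Xn p) (Yn p)) := by
    rw [← H214.pol_false]
    exact hv.1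
  have hlink : ∀ ξ : Fin 6 → ℝ, IsCl ξ → ∀ (δ : C6) (lX lY : ℂ),
      |theFlatFam.η ξ (bd k p.1.1 (dn p)) (xn k p.1.1 (Xn p) (Yn p)) v
        (nv k δ (dn p) (Xn p) (Yn p) lX lY)| =
      |fderiv ℝ (H339.Un (AX ξ) k ρ) p ((δ, (lX + lY) / 2), (lX - lY) / 2)| := by
    intro ξ hξ δ lX lY
    exact (H339.eta_abs hNB.toNB (theFlatFam.flat ξ hξ) (hball hqr) hbX
      (lt_of_le_of_lt hX hcρ) (lt_of_le_of_lt hY hcρ) hff hv.2 δ lX lY).2
  obtain ⟨a0, a1, a2⟩ := alc_self k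
  refine ⟨fun δ lX lY ξ hξ => ⟨?_, fun he => ?_, ?_⟩, fun ξ hξ => ⟨?_, ?_⟩⟩
  · rw [hlink ξ hξ]
    refine ((hPt.est_T hFB hqR hc hc1 hcR hX hY hyl1 hξ δ lX lY).1).trans ?_
    have : 0 ≤ ‖ξ‖ * (‖δ‖ + ‖lX‖ + ‖lY‖) := by positivity
    nlinarith
  · rw [hlink ξ hξ]
    refine ((hPt.est_T hFB hqR hc hc1 hcR hX hY hyl1 hξ δ lX lY).2.1 he).trans ?_
    have : 0 ≤ ‖ξ‖ * (‖δ‖ + (‖Xn p‖ + (yl c (dn p))⁻¹) * ‖lX‖ +
        (‖Yn p‖ + (yl c (dn p))⁻¹) * ‖lY‖) := by positivity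
    nlinarith
  · rw [hlink _ (H225.isCl_alc k)]
    refine ((hPt.est_T hFB hqR hc hc1 hcR hX hY hyl1 (H225.isCl_alc k) δ lX lY).2.2
      a0 a1 a2).trans ?_
    have : 0 ≤ (yl c (dn p))⁻¹ * (‖δ‖ + ‖lX‖ + ‖lY‖) := by positivity
    nlinarith
  · rw [hlink ξ hξ]
    refine ((hPt.est_E hFB hqR hc hc1 hcR hX hY hyl1 hξ rfl rfl).1).trans ?_
    have : 0 ≤ ‖ξ‖ * (yl c (dn p))⁻¹ := by positivity
    nlinarith
  · rw [hlink _ (H225.isCl_alc k)]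
    refine ((hPt.est_E hFB hqR hc hc1 hcR hX hY hyl1 (H225.isCl_alc k) rfl rfl).2
      a0 a1 a2).trans ?_
    have : 0 ≤ ((yl c (dn p))⁻¹) ^ 2 := by positivity
    nlinarith

end Vale.Agent.P273.H401.Nk

end
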