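import Vale.Agent.P273.H188.Dat2
import Vale.Agent.P273.H225.NkDef
import Vale.Agent.P273.H580.The

/-!
# P273, row ASY1, item N1 (helper401): the two links of the flat neck bounds

Coordinates of a neck: `q` = merged configuration, `l` = logarithm of the half difference, `z` =
logarithm of the neck coordinate `X`; `Y = exp (2 l - z)`.
-/

noncomputable section

namespace Vale.Agent.P273.H401

open Set Filter Complex H681 H95 H973 H730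
open Vale.Agent.P273.H580 (fl mkA AX cX theStms theFlatFam)
open Vale.Agent.P273.H598
open Vale.Agent.P273.H598.Sol (dot)
open scoped Topology ContDiff Real

/-- The vanishing period divided by `2 π i`, both integrands. -/
def ccN (k : Fin 5) (ρ : ℝ) (q : C6) (ε : ℂ) : ℂ × ℂ :=
  (c0 (fun z => HH k 0 (q, z)) (5 * ρ) ε, c0 (fun z => HH k 1 (q, z)) (5 * ρ) ε)

/-- The regular part of the primitive, both integrands. -/
def FFN (k : Fin 5) (ρ : ℝ) (q : C6) (ε X Y : ℂ) : ℂ × ℂ :=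
  (P0 (fun z => HH k 0 (q, z)) (5 * ρ) X ε - P0 (fun z => HH k 0 (q, z)) (5 * ρ) Y ε,
    P0 (fun z => HH k 1 (q, z)) (5 * ρ) X ε - P0 (fun z => HH k 1 (q, z)) (5 * ρ) Y ε)

/-- The potential in the coordinates of the neck. -/
def UU (k : Fin 5) (ρ : ℝ) (ξ : Fin 6 → ℝ) (w : C6 × ℂ × ℂ) : ℝ :=
  (dot (fl ξ (bb k (exp w.2.1, w.1))) (ccN k ρ w.1 (exp w.2.1 ^ 2)) * (w.2.2 - w.2.1)).re +
  (dot (fl ξ (bb k (exp w.2.1, w.1)))
    (FFN k ρ w.1 (exp w.2.1 ^ 2) (exp w.2.2) (exp (2 * w.2.1 - w.2.2)))).re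

/-- **The link**: the flat form in the neck is `± D U`. -/
def LinkN : Prop := ∀ (k : Fin 5) (V : Set C6) (ρ : ℝ), NB k V ρ → ∀ ξ : Fin 6 → ℝ, IsCl ξ →
  ∀ q ∈ V, ∀ l z : ℂ, ‖exp l‖ < ρ / 2 → ‖exp z‖ < ρ → ‖exp (2 * l - z)‖ < ρ →
    bd k q (exp l) ∈ XX → ∀ v : ℂ, On1 false (bd k q (exp l), xn k q (exp z) (exp (2 * l - z))) v →
    ∃ σ : ℝ, |σ| = 1 ∧ ∀ (δ : C6) (lX lY : ℂ),
      theFlatFam.η ξ (bd k q (exp l)) (xn k q (exp z) (exp (2 * l - z))) v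
          (nv k δ (exp l) (exp z) (exp (2 * l - z)) lX lY) =
        σ * fderiv ℝ (UU k ρ ξ) (q, l, z) (δ, (lX + lY) / 2, lX)

/-- **The solution at one node** (`H188.NodeSol` with the period). -/
def NodeC : Prop := ∀ k : Fin 5, ∀ q₀ ∈ H828.XD k,
  ∃ (V : Set C6) (ρ : ℝ) (D : Sol.Dat (ℂ × C6)) (h : D.Ok ((0 : ℂ), q₀)), NB k V ρ ∧ q₀ ∈ V ∧
    D.i0 = k.castSucc ∧ D.i1 = k.succ ∧
    ∀ᶠ p in 𝓝 ((0 : ℂ), q₀), D.c p = ccN k ρ p.2 (p.1 ^ 2) ∧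
      (p.1 ≠ 0 → bb k p ∈ XX → ∀ ξ, IsCl ξ →
        fl ξ (bb k p) = Sol.Dat.vs h p (-Real.log ‖p.1‖) (lg (-p.1)).im ξ ∧
        dot (fl ξ (bb k p)) (D.c p) =
          Sol.Dat.xs h p (-Real.log ‖p.1‖) (lg (-p.1)).im ξ +
            (((ξ k.succ - ξ k.castSucc) / π : ℝ) : ℂ) * I)

end Vale.Agent.P273.H401

end
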