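import Vale.Agent.P273.H401.Base
import Vale.Agent.P273.H828.AnnDefs

/-!
Configurations of isolated pairs, and the general Stokes formula for two pairs that turn while a
parameter moves.
-/

noncomputable section
namespace Vale.Agent.P273.H401

open MeasureTheory Set H681 H828

variable {V F : Type*} [AddCommGroup V] [Module ℝ V] [NormedAddCommGroup F] [NormedSpace ℝ F]

/-- six points near `1, .., 6`; the pair `a, a + 1` has the difference `δ a` -/
def cfg (δ : Fin 5 → ℂ) : C6 :=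
  ![1 + (1 - δ 0) / 2, 2 - (1 - δ 0) / 2 + (1 - δ 1) / 2, 3 - (1 - δ 1) / 2 + (1 - δ 2) / 2,
    4 - (1 - δ 2) / 2 + (1 - δ 3) / 2, 5 - (1 - δ 3) / 2 + (1 - δ 4) / 2, 6 - (1 - δ 4) / 2]

/-- no two neighbouring pairs move -/
def Iso (δ : Fin 5 → ℂ) : Prop := ∀ a : Fin 4, δ a.castSucc = 1 ∨ δ a.succ = 1

/-- the difference stays on the right side of the slit -/
def Slit (z : ℂ) : Prop := |z.re| ≤ 1 ∧ (z.re = 0 → z.im < 0)

theorem slit_one : Slit 1 := by constructor <;> simp

theorem cfg_mem {δ : Fin 5 → ℂ} (hi : Iso δ) (hs : ∀ a, Slit (δ a)) : cfg δ ∈ XX := by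
  have h01 := hi 0
  have h12 := hi 1
  have h23 := hi 2
  have h34 := hi 3
  have e0 : (Fin.castSucc (0 : Fin 4)) = (0 : Fin 5) := rfl
  have e0' : (Fin.succ (0 : Fin 4)) = (1 : Fin 5) := rfl
  have e1 : (Fin.castSucc (1 : Fin 4)) = (1 : Fin 5) := rfl
  have e1' : (Fin.succ (1 : Fin 4)) = (2 : Fin 5) := rfl
  have e2 : (Fin.castSucc (2 : Fin 4)) = (2 : Fin 5) := rfl
  have e2' : (Fin.succ (2 : Fin 4)) = (3 : Fin 5) := rfl
  have e3 : (Fin.castSucc (3 : Fin 4)) = (3 : Fin 5) := rfl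
  have e3' : (Fin.succ (3 : Fin 4)) = (4 : Fin 5) := rfl
  rw [e0, e0'] at h01
  rw [e1, e1'] at h12
  rw [e2, e2'] at h23
  rw [e3, e3'] at h34
  have b0 := abs_le.1 (hs 0).1
  have b1 := abs_le.1 (hs 1).1
  have b2 := abs_le.1 (hs 2).1
  have b3 := abs_le.1 (hs 3).1
  have b4 := abs_le.1 (hs 4).1
  have i0 := (hs 0).2
  have i1 := (hs 1).2
  have i2 := (hs 2).2
  have i3 := (hs 3).2
  have i4 := (hs 4).2
  -- neighbours
  have key : ∀ z w : ℂ, (z = 1 ∨ w = 1) → |z.re| ≤ 1 → |w.re| ≤ 1 → 0 ≤ z.re + w.re := by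
    intro z w h hz hw
    have hz := abs_le.1 hz
    have hw := abs_le.1 hw
    rcases h with rfl | rfl
    · simp only [Complex.one_re]; linarith [hw.1]
    · simp only [Complex.one_re]; linarith [hz.1]
  have s01 := key _ _ h01 (hs 0).1 (hs 1).1
  have s12 := key _ _ h12 (hs 1).1 (hs 2).1
  have s23 := key _ _ h23 (hs 2).1 (hs 3).1
  have s34 := key _ _ h34 (hs 3).1 (hs 4).1
  intro i j hij
  fin_cases i <;> fin_cases j <;>
    first
    | (exfalso; revert hij; decide)
    | skip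
  · -- 0 1
    simp [cfg]
    intro h
    rcases h01 with h0 | h0
    · rw [h0] at h; simp at h; exfalso; linarith [b1.1, b1.2]
    · rw [h0] at h ⊢; simp at h ⊢; linarith [i0 (by linarith)]
  · simp [cfg]; intro h; exfalso; linarith [b0.1, b0.2, b1.1, b1.2, b2.1, b2.2]
  · simp [cfg]; intro h; exfalso; linarith [b0.1, b0.2, b1.1, b1.2, b2.1, b2.2, b3.1, b3.2]
  · simp [cfg]; intro h; exfalso; linarith [b0.1, b0.2, b3.1, b3.2, b4.1, b4.2]
  · simp [cfg]; intro h; exfalso; linarith [b0.1, b0.2, b4.1, b4.2]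
  · -- 1 2
    simp [cfg]
    intro h
    rcases h01 with h0 | h0
    · rcases h12 with h1 | h1
      · rw [h0, h1] at h; simp at h; exfalso; linarith [b2.1, b2.2]
      · rw [h0, h1] at h ⊢; simp at h ⊢; linarith [i1 (by linarith)]
    · rw [h0] at h; simp at h; exfalso; linarith [b0.1, b0.2, b2.1, b2.2]
  · simp [cfg]; intro h; exfalso; linarith [b0.1, b0.2, b1.1, b1.2, b2.1, b2.2, b3.1, b3.2]
  · simp [cfg]; intro h; exfalso
    linarith [b0.1, b0.2, b1.1, b1.2, b2.1, b2.2, b3.1, b3.2, b4.1, b4.2]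
  · simp [cfg]; intro h; exfalso
    linarith [b0.1, b0.2, b1.1, b1.2, b2.1, b2.2, b3.1, b3.2, b4.1, b4.2]
  · -- 2 3
    simp [cfg]
    intro h
    rcases h12 with h0 | h0
    · rcases h23 with h1 | h1
      · rw [h0, h1] at h; simp at h; exfalso; linarith [b3.1, b3.2]
      · rw [h0, h1] at h ⊢; simp at h ⊢; linarith [i2 (by linarith)]
    · rw [h0] at h; simp at h; exfalso; linarith [b1.1, b1.2, b3.1, b3.2]
  · simp [cfg]; intro h; exfalso
    linarith [b0.1, b0.2, b1.1, b1.2, b2.1, b2.2, b3.1, b3.2, b4.1, b4.2]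
  · simp [cfg]; intro h; exfalso
    linarith [b0.1, b0.2, b1.1, b1.2, b2.1, b2.2, b3.1, b3.2, b4.1, b4.2]
  · -- 3 4
    simp [cfg]
    intro h
    rcases h23 with h0 | h0
    · rcases h34 with h1 | h1
      · rw [h0, h1] at h; simp at h; exfalso; linarith [b4.1, b4.2]
      · rw [h0, h1] at h ⊢; simp at h ⊢; linarith [i3 (by linarith)]
    · rw [h0] at h; simp at h; exfalso; linarith [b2.1, b2.2, b4.1, b4.2]
  · simp [cfg]; intro h; exfalso
    linarith [b0.1, b0.2, b1.1, b1.2, b2.1, b2.2, b3.1, b3.2, b4.1, b4.2]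
  · -- 4 5
    simp [cfg]
    intro h
    rcases h34 with h0 | h0
    · rw [h0] at h ⊢; simp at h ⊢; linarith [i4 (by linarith)]
    · rw [h0] at h; simp at h; exfalso; linarith [b3.1, b3.2]

/-- exchanging the labels of an isolated pair changes the sign of its difference -/
theorem swL_cfg (j : Fin 5) {δ δ' : Fin 5 → ℂ} (h1 : δ' j = -δ j) (h2 : ∀ a, a ≠ j → δ' a = δ a)
    (hn : ∀ a : Fin 5, (a.1 + 1 = j.1 ∨ j.1 + 1 = a.1) → δ a = 1) : swL j (cfg δ) = cfg δ' := by
  fin_cases j
  · have a1 := h2 1 (by decide)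
    have a2 := h2 2 (by decide)
    have a3 := h2 3 (by decide)
    have a4 := h2 4 (by decide)
    have n1 := hn 1 (by decide)
    simp only [Fin.zero_eta] at h1
    funext i
    fin_cases i <;> simp [cfg, sw, Equiv.swap_apply_def, h1, a1, a2, a3, a4, n1] <;> ring
  · have a1 := h2 0 (by decide)
    have a2 := h2 2 (by decide)
    have a3 := h2 3 (by decide)
    have a4 := h2 4 (by decide)
    have n1 := hn 0 (by decide)
    have n2 := hn 2 (by decide)
    simp only [Fin.mk_one] at h1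
    funext i
    fin_cases i <;> simp [cfg, sw, Equiv.swap_apply_def, h1, a1, a2, a3, a4, n1, n2] <;> ring
  · have a1 := h2 0 (by decide)
    have a2 := h2 1 (by decide)
    have a3 := h2 3 (by decide)
    have a4 := h2 4 (by decide)
    have n1 := hn 1 (by decide)
    have n2 := hn 3 (by decide)
    simp only [Fin.reduceFinMk] at h1
    funext i
    fin_cases i <;> simp [cfg, sw, Equiv.swap_apply_def, h1, a1, a2, a3, a4, n1, n2] <;> ring
  · have a1 := h2 0 (by decide)
    have a2 := h2 1 (by decide)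
    have a3 := h2 2 (by decide)
    have a4 := h2 4 (by decide)
    have n1 := hn 2 (by decide)
    have n2 := hn 4 (by decide)
    simp only [Fin.reduceFinMk] at h1
    funext i
    fin_cases i <;> simp [cfg, sw, Equiv.swap_apply_def, h1, a1, a2, a3, a4, n1, n2] <;> ring
  · have a1 := h2 0 (by decide)
    have a2 := h2 1 (by decide)
    have a3 := h2 2 (by decide)
    have a4 := h2 3 (by decide)
    have n1 := hn 3 (by decide)
    simp only [Fin.reduceFinMk] at h1
    funext i
    fin_cases i <;> simp [cfg, sw, Equiv.swap_apply_def, h1, a1, a2, a3, a4, n1] <;> ring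

end Vale.Agent.P273.H401
end
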