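import Vale.Agent.P273.H214.Root
import Vale.Agent.P273.H604.GInf
import Vale.Agent.P273.H828.AnnDefs

/-!
P273, row ASY1, (O), core, part 1: local bound of the cut-off part near a merged configuration.
-/

noncomputable section
namespace Vale.Agent.P273.H401.Core

open Set Filter
open Vale.Agent.P273.H214
open H604 (EIc chiI Rr)
open scoped Topology ContDiff

/-! ### the cut-off functions at an isolated root -/

/-- the root `j` is different from all others (other roots may coincide) -/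
def Isol (b : Bs) (j : Fin 6) : Prop := ∀ i, i ≠ j → b i ≠ b j

variable {b : Bs} {j : Fin 6}

theorem sum_pos' (hb : Isol b j) : 0 < ∑ i ∈ Finset.univ.erase j, (‖b i - b j‖ ^ 2)⁻¹ := by
  refine Finset.sum_pos (fun i hi => ?_) ?_
  · have h1 : b i - b j ≠ 0 := sub_ne_zero.2 (hb i (Finset.mem_erase.1 hi).1)
    positivity
  · exact ⟨j + 1, Finset.mem_erase.2 ⟨by fin_cases j <;> decide, Finset.mem_univ _⟩⟩

theorem hh_pos' (hb : Isol b j) : 0 < hh b j := inv_pos.2 (sum_pos' hb)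

theorem hh_le' (hb : Isol b j) {i : Fin 6} (hi : i ≠ j) : hh b j ≤ ‖b i - b j‖ ^ 2 := by
  have h1 : b i - b j ≠ 0 := sub_ne_zero.2 (hb i hi)
  have h2 : (‖b i - b j‖ ^ 2)⁻¹ ≤ ∑ i ∈ Finset.univ.erase j, (‖b i - b j‖ ^ 2)⁻¹ :=
    Finset.single_le_sum (f := fun i => (‖b i - b j‖ ^ 2)⁻¹) (fun _ _ => by positivity)
      (Finset.mem_erase.2 ⟨hi, Finset.mem_univ _⟩)
  have h3 : (0 : ℝ) < (‖b i - b j‖ ^ 2)⁻¹ := by positivity
  calc hh b j ≤ ((‖b i - b j‖ ^ 2)⁻¹)⁻¹ := inv_anti₀ h3 h2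
    _ = ‖b i - b j‖ ^ 2 := inv_inv _

theorem mem_Dj' (hb : Isol b j) {x : ℂ} (h : 4 * ‖x - b j‖ ^ 2 < hh b j) : (b, x) ∈ Dj j :=
  fun i hi => by
    have h1 := hh_le' hb hi
    have h2 : (2 * ‖x - b j‖) ^ 2 < ‖b i - b j‖ ^ 2 := by nlinarith
    exact lt_of_pow_lt_pow_left₀ 2 (norm_nonneg _) h2

theorem contDiffAt_hh' (hb : Isol b j) : ContDiffAt ℝ ∞ (fun b : Bs => hh b j) b := by
  unfold hh
  refine ContDiffAt.inv ?_ (sum_pos' hb).ne'
  refine ContDiffAt.sum fun i hi => ?_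
  refine ContDiffAt.inv (contDiff_normSq_sub i j).contDiffAt ?_
  have h1 : b i - b j ≠ 0 := sub_ne_zero.2 (hb i (Finset.mem_erase.1 hi).1)
  positivity

theorem chiW_eq_zero' (hb : Isol b j) {x : ℂ} (h : hh b j ≤ 32 * ‖x - b j‖ ^ 2) :
    chiW b j x = 0 := by
  refine Real.smoothTransition.zero_of_nonpos ?_
  have : 2 ≤ 64 * ‖x - b j‖ ^ 2 / hh b j := (le_div_iff₀ (hh_pos' hb)).2 (by linarith)
  linarith

theorem contDiffAt_chiW' (hb : Isol b j) (x : ℂ) :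
    ContDiffAt ℝ ∞ (fun p : Bs × ℂ => chiW p.1 j p.2) (b, x) := by
  unfold chiW
  refine (Real.smoothTransition.contDiff (n := (⊤ : ℕ∞))).contDiffAt.comp (b, x) ?_
  have h1 : ContDiffAt ℝ ∞ (fun p : Bs × ℂ => hh p.1 j) (b, x) :=
    ContDiffAt.comp (g := fun b : Bs => hh b j) (f := Prod.fst) (b, x) (contDiffAt_hh' hb)
      contDiffAt_fst
  have h2 : ContDiff ℝ ∞ (fun p : Bs × ℂ => ‖p.2 - p.1 j‖ ^ 2) := by
    have h : ContDiff ℝ ∞ (fun p : Bs × ℂ => p.2 - p.1 j) := by fun_prop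
    exact h.norm_sq ℝ
  exact contDiffAt_const.sub ((contDiffAt_const.mul h2.contDiffAt).div h1 (hh_pos' hb).ne')

theorem isol_eventually (hb : Isol b j) : ∀ᶠ b' in 𝓝 b, Isol b' j := by
  have : IsOpen {b' : Bs | Isol b' j} := by
    have e : {b' : Bs | Isol b' j} = ⋂ i : {i : Fin 6 // i ≠ j}, {b' : Bs | b' i.1 ≠ b' j} := by
      ext b'; simp [Isol]
    rw [e]
    exact isOpen_iInter_of_finite fun i => isOpen_ne_fun (by fun_prop) (by fun_prop)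
  exact this.mem_nhds hb

/-- the integrals from the root `j` along a branch -/
def eW (j : Fin 6) (Y : Bs × ℂ → ℂ) (q : Bs × ℂ) : ℂ × ℂ :=
  chiW q.1 j q.2 • EWv q.1 j q.2 (Y q)

theorem contDiffAt_eW {p : Bs × ℂ} (hb : Isol p.1 j) {Y : Bs × ℂ → ℂ} (hY : IsBr Y p) :
    ContDiffAt ℝ ∞ (eW j Y) p := by
  unfold eW
  by_cases h : 4 * ‖p.2 - p.1 j‖ ^ 2 < hh p.1 j
  · have hp : p ∈ Dj j := mem_Dj' hb h
    exact (contDiffAt_chiW' hb p.2).smul (contDiffAt_EWv hp hY.smooth hY.ne_zero)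
  · have h1 : hh p.1 j < 32 * ‖p.2 - p.1 j‖ ^ 2 := by
      have h2 := hh_pos' hb
      push Not at h
      linarith
    refine (contDiffAt_const (c := (0 : ℂ × ℂ))).congr_of_eventuallyEq ?_
    have c1 : ContinuousAt (fun q : Bs × ℂ => hh q.1 j) p :=
      ContinuousAt.comp (f := Prod.fst) (contDiffAt_hh' hb).continuousAt continuousAt_fst
    have c2 : ContinuousAt (fun q : Bs × ℂ => 32 * ‖q.2 - q.1 j‖ ^ 2) p := by
      have : Continuous (fun q : Bs × ℂ => 32 * ‖q.2 - q.1 j‖ ^ 2) := by fun_prop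
      exact this.continuousAt
    filter_upwards [c1.eventually_lt c2 h1, continuousAt_fst.eventually (isol_eventually hb)]
      with q h4 h5
    rw [chiW_eq_zero' h5 h4.le, zero_smul]

/-- the integrals from infinity along a branch -/
def eI' (Y : Bs × ℂ → ℂ) (q : Bs × ℂ) : ℂ × ℂ := chiI q.1 q.2 • EIv q.1 q.2 (Y q)

theorem contDiffAt_eI' {p : Bs × ℂ} {Y : Bs × ℂ → ℂ} (hY : IsBr Y p) :
    ContDiffAt ℝ ∞ (eI' Y) p := by
  unfold eI'
  by_cases h : Rr p.1 ≤ ‖p.2‖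
  · have hx : p.2 ≠ 0 := by
      intro h0
      rw [h0, norm_zero] at h
      linarith [H604.Rr_pos p.1]
    exact (H604.contDiff_chiI.contDiffAt).smul
      (contDiffAt_EIv hx (H604.mem_DI_inv (H604.two_mul_norm_lt h)) hY.smooth hY.ne_zero)
  · refine (contDiffAt_const (c := (0 : ℂ × ℂ))).congr_of_eventuallyEq ?_
    filter_upwards [chiI_eventually_zero (not_le.1 h)] with q hq
    rw [hq, zero_smul]

/-! ### near a merged configuration -/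

variable {k : Fin 5} {q₀ : Bs} {x₀ : ℂ}

theorem isol_of_XD (hq : q₀ ∈ H828.XD k) {j : Fin 6} (h1 : j ≠ k.castSucc) (h2 : j ≠ k.succ) :
    Isol q₀ j := by
  intro i hi he
  rcases lt_or_gt_of_ne hi with h | h
  · have := hq.2 i j h (Or.inr h2) (by rw [he])
    rw [he] at this
    exact lt_irrefl _ this
  · have := hq.2 j i h (Or.inl h1) (by rw [he])
    rw [he] at this
    exact lt_irrefl _ this

/-- the cut-offs at the two roots of the pair vanish -/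
theorem chiW_pair (hq : q₀ k.castSucc = q₀ k.succ) (hx : x₀ ≠ q₀ k.castSucc) :
    ∀ᶠ p : Bs × ℂ in 𝓝 (q₀, x₀), p.1 ∈ Cf →
      chiW p.1 k.castSucc p.2 = 0 ∧ chiW p.1 k.succ p.2 = 0 := by
  have hne : k.castSucc ≠ k.succ := (Fin.castSucc_lt_succ).ne
  have h0 : 0 < ‖x₀ - q₀ k.castSucc‖ := norm_pos_iff.2 (sub_ne_zero.2 hx)
  have c1 : Tendsto (fun p : Bs × ℂ => ‖p.1 k.castSucc - p.1 k.succ‖ ^ 2) (𝓝 (q₀, x₀))
      (𝓝 (‖q₀ k.castSucc - q₀ k.succ‖ ^ 2)) :=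
    (show Continuous fun p : Bs × ℂ => ‖p.1 k.castSucc - p.1 k.succ‖ ^ 2 by fun_prop).tendsto _
  rw [hq, sub_self, norm_zero, zero_pow two_ne_zero] at c1
  have c2 : Tendsto (fun p : Bs × ℂ => 32 * ‖p.2 - p.1 k.castSucc‖ ^ 2) (𝓝 (q₀, x₀))
      (𝓝 (32 * ‖x₀ - q₀ k.castSucc‖ ^ 2)) :=
    (show Continuous fun p : Bs × ℂ => 32 * ‖p.2 - p.1 k.castSucc‖ ^ 2 by fun_prop).tendsto _
  have c3 : Tendsto (fun p : Bs × ℂ => 32 * ‖p.2 - p.1 k.succ‖ ^ 2) (𝓝 (q₀, x₀))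
      (𝓝 (32 * ‖x₀ - q₀ k.succ‖ ^ 2)) :=
    (show Continuous fun p : Bs × ℂ => 32 * ‖p.2 - p.1 k.succ‖ ^ 2 by fun_prop).tendsto _
  have p2 : 0 < 32 * ‖x₀ - q₀ k.castSucc‖ ^ 2 := by positivity
  have p3 : 0 < 32 * ‖x₀ - q₀ k.succ‖ ^ 2 := by rw [← hq]; exact p2
  filter_upwards [c1.eventually_lt c2 p2, c1.eventually_lt c3 p3] with p h2 h3 hp
  refine ⟨chiW_eq_zero hp ((hh_le hp hne.symm).trans ?_), chiW_eq_zero hp ((hh_le hp hne).trans ?_)⟩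
  · rw [norm_sub_rev]; exact h2.le
  · exact h3.le

variable {H : Type*} [NormedAddCommGroup H] [NormedSpace ℝ H]

/-- the vector of integrals, without the two roots of the pair -/
def Vc (k : Fin 5) (Y : Bs × ℂ → ℂ) (q : Bs × ℂ) : ℂ × ℂ :=
  (∑ j ∈ (Finset.univ.erase k.castSucc).erase k.succ, eW j Y q) + eI' Y q

theorem contDiffAt_Vc {p : Bs × ℂ}
    (hb : ∀ j, j ≠ k.castSucc → j ≠ k.succ → Isol p.1 j) {Y : Bs × ℂ → ℂ}
    (hY : IsBr Y p) : ContDiffAt ℝ ∞ (Vc k Y) p := by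
  unfold Vc
  refine (ContDiffAt.sum fun j hj => ?_).add (contDiffAt_eI' hY)
  simp only [Finset.mem_erase, Finset.mem_univ, and_true] at hj
  exact contDiffAt_eW (hb j hj.2 hj.1) hY

theorem Ecut_eq (A : Bs → (ℂ × ℂ →L[ℝ] H)) (Y : Bs × ℂ → ℂ) {q : Bs × ℂ}
    (h1 : chiW q.1 k.castSucc q.2 = 0) (h2 : chiW q.1 k.succ q.2 = 0) :
    Ecut A q (Y q) = A q.1 (Vc k Y q) := by
  have hne : k.castSucc ≠ k.succ := (Fin.castSucc_lt_succ).ne
  unfold Ecut Vc eW eI'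
  rw [map_add, map_sum, map_smul]
  simp only [map_smul]
  congr 1
  rw [← Finset.add_sum_erase Finset.univ _ (Finset.mem_univ k.castSucc),
    ← Finset.add_sum_erase (Finset.univ.erase k.castSucc) _
      (Finset.mem_erase.2 ⟨hne.symm, Finset.mem_univ k.succ⟩), h1, h2]
  simp

/-- **local bound of the cut-off part** near a merged configuration, away from all roots -/
theorem dcut_local (hq : q₀ ∈ H828.XD k) (hx : ∀ l, x₀ ≠ q₀ l) : ∃ C : ℝ, 0 < C ∧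
    ∀ᶠ p : Bs × ℂ in 𝓝 (q₀, x₀), p.1 ∈ Cf → ∀ A : Bs → (ℂ × ℂ →L[ℝ] H),
      DifferentiableAt ℝ A p.1 → ∀ y, y ^ 2 = ff p → ∀ w : Bs × ℂ,
        ‖dcut A p.1 p.2 y w‖ ≤ C * (‖A p.1‖ * ‖w‖ + ‖fderiv ℝ A p.1 w.1‖) := by
  have hff : ff (q₀, x₀) ≠ 0 := ff_ne_zero_iff.2 hx
  obtain ⟨y₀, hy₀⟩ : ∃ y₀ : ℂ, y₀ ^ 2 = ff (q₀, x₀) := ⟨_, psq_sq hff⟩
  have hY := isBr_Ybr hff hy₀
  set Y := Ybr (q₀, x₀) y₀ with hYdef
  have hV : ContDiffAt ℝ ∞ (Vc k Y) (q₀, x₀) :=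
    contDiffAt_Vc (fun j h1 h2 => isol_of_XD hq h1 h2) hY
  -- bounds of `V` and its derivative
  obtain ⟨C1, hC1⟩ : ∃ C1, ‖Vc k Y (q₀, x₀)‖ < C1 := exists_gt _
  obtain ⟨C2, hC2⟩ : ∃ C2, ‖fderiv ℝ (Vc k Y) (q₀, x₀)‖ < C2 := exists_gt _
  have b1 : ∀ᶠ p in 𝓝 (q₀, x₀), ‖Vc k Y p‖ < C1 :=
    (hV.continuousAt.norm).eventually_lt continuousAt_const hC1
  have b2 : ∀ᶠ p in 𝓝 (q₀, x₀), ‖fderiv ℝ (Vc k Y) p‖ < C2 :=
    (((hV.fderiv_right (m := 0) (by simp)).continuousAt).norm).eventually_lt continuousAt_const hC2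
  have b3 : ∀ᶠ p in 𝓝 (q₀, x₀), ContDiffAt ℝ 1 (Vc k Y) p :=
    (hV.of_le (by simp)).eventually (by simp)
  refine ⟨max (max C1 C2) 1, by positivity, ?_⟩
  filter_upwards [b1, b2, b3, hY.eventually,
    (chiW_pair hq.1 (hx _)).eventually_nhds] with p h1 h2 h3 hYp h5 hp A hA y hy w
  have hCp : ∀ᶠ p' : Bs × ℂ in 𝓝 p, p'.1 ∈ Cf :=
    continuous_fst.continuousAt.eventually_mem (isOpen_Cf.mem_nhds hp)
  have e1 : (fun q => Ecut A q (Y q)) =ᶠ[𝓝 p] fun q => A q.1 (Vc k Y q) := by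
    filter_upwards [h5, hCp] with q h6 h7
    exact Ecut_eq A Y (h6 h7).1 (h6 h7).2
  have hdA : HasFDerivAt (fun q : Bs × ℂ => A q.1)
      ((fderiv ℝ A p.1).comp (ContinuousLinearMap.fst ℝ Bs ℂ)) p :=
    hA.hasFDerivAt.comp p hasFDerivAt_fst
  have hdV : HasFDerivAt (Vc k Y) (fderiv ℝ (Vc k Y) p) p :=
    (h3.differentiableAt (by simp)).hasFDerivAt
  have hd := hdA.clm_apply hdV
  have key : ‖dcut A p.1 p.2 (Y p) w‖ ≤ max (max C1 C2) 1 *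
      (‖A p.1‖ * ‖w‖ + ‖fderiv ℝ A p.1 w.1‖) := by
    rw [dcut_eq hYp, e1.fderiv_eq, hd.fderiv]
    simp only [add_apply, ContinuousLinearMap.comp_apply, ContinuousLinearMap.flip_apply,
      ContinuousLinearMap.coe_fst']
    have n1 : ‖A p.1 (fderiv ℝ (Vc k Y) p w)‖ ≤ ‖A p.1‖ * (C2 * ‖w‖) :=
      ((A p.1).le_opNorm _).trans (mul_le_mul_of_nonneg_left
        (((fderiv ℝ (Vc k Y) p).le_opNorm w).trans (mul_le_mul_of_nonneg_right h2.le
          (norm_nonneg _))) (norm_nonneg _))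
    have n2 : ‖(fderiv ℝ A p.1 w.1) (Vc k Y p)‖ ≤ ‖fderiv ℝ A p.1 w.1‖ * C1 :=
      ((fderiv ℝ A p.1 w.1).le_opNorm _).trans (mul_le_mul_of_nonneg_left h1.le (norm_nonneg _))
    refine (norm_add_le _ _).trans ?_
    have m1 : C2 ≤ max (max C1 C2) 1 := (le_max_right _ _).trans (le_max_left _ _)
    have m2 : C1 ≤ max (max C1 C2) 1 := (le_max_left _ _).trans (le_max_left _ _)
    have n3 : ‖A p.1‖ * (C2 * ‖w‖) ≤ max (max C1 C2) 1 * (‖A p.1‖ * ‖w‖) := by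
      calc ‖A p.1‖ * (C2 * ‖w‖) = C2 * (‖A p.1‖ * ‖w‖) := by ring
        _ ≤ _ := mul_le_mul_of_nonneg_right m1 (by positivity)
    have n4 : ‖fderiv ℝ A p.1 w.1‖ * C1 ≤ max (max C1 C2) 1 * ‖fderiv ℝ A p.1 w.1‖ := by
      rw [mul_comm]
      exact mul_le_mul_of_nonneg_right m2 (norm_nonneg _)
    linarith
  have hYp2 : Y p ^ 2 = ff p := hYp.sq.self_of_nhds
  have hpm : y = Y p ∨ y = -Y p := by
    have : (y - Y p) * (y + Y p) = 0 := by linear_combination hy - hYp2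
    rcases mul_eq_zero.1 this with h | h
    · exact Or.inl (sub_eq_zero.1 h)
    · exact Or.inr (eq_neg_of_add_eq_zero_left h)
  rcases hpm with rfl | rfl
  · exact key
  · rw [dcut_neg]
    simpa using key

end Vale.Agent.P273.H401.Core
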