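import Vale.Agent.P273.H401.Core0
import Vale.Agent.P273.H401.Core1
import Vale.Agent.P273.H887.Pol

/-!
P273, row ASY1, (O), core, part 2: from local bounds near merged configurations to uniform bounds on
the core.
-/

noncomputable section
namespace Vale.Agent.P273.H401.Core

open Set Filter
open Vale.Agent.P273.H214
open H604 (chiI Rr Far Cinf)
open H681 (XX) 
open H95 (IsCl)
open scoped Topology ContDiff

theorem XX_sub_Cf : XX ⊆ Cf := fun _ hb => Vale.P273.H887.injective_of_mem_XX hb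

/-- the bound of a one mark form by the coefficients and their derivatives -/
def LB (η : (Fin 6 → ℝ) → Bs → ℂ → ℂ → (Bs × ℂ →L[ℝ] ℝ))
    (A : (Fin 6 → ℝ) → Bs → (ℂ × ℂ →L[ℝ] ℝ)) (c : (Fin 6 → ℝ) → Bs → ℝ) (C : ℝ)
    (p : Bs × ℂ) : Prop :=
  p.1 ∈ XX → ∀ ξ, IsCl ξ → ∀ y, y ^ 2 = ff p → y ≠ 0 → ∀ w : Bs × ℂ,
    |η ξ p.1 p.2 y w| ≤
      C * (‖A ξ p.1‖ * ‖w‖ + ‖fderiv ℝ (A ξ) p.1 w.1‖ + |fderiv ℝ (c ξ) p.1 w.1|)

variable {η : (Fin 6 → ℝ) → Bs → ℂ → ℂ → (Bs × ℂ →L[ℝ] ℝ)}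
  {A : (Fin 6 → ℝ) → Bs → (ℂ × ℂ →L[ℝ] ℝ)} {c : (Fin 6 → ℝ) → Bs → ℝ}

theorem LB.mono {C C' : ℝ} (h : C ≤ C') {p : Bs × ℂ} (hp : LB η A c C p) : LB η A c C' p :=
  fun h1 ξ h2 y h3 h4 w => (hp h1 ξ h2 y h3 h4 w).trans
    (mul_le_mul_of_nonneg_right h (by positivity))

/-- the flat form is bounded near merged configurations -/
def FlatL (η : (Fin 6 → ℝ) → Bs → ℂ → ℂ → (Bs × ℂ →L[ℝ] ℝ))
    (A : (Fin 6 → ℝ) → Bs → (ℂ × ℂ →L[ℝ] ℝ)) (c : (Fin 6 → ℝ) → Bs → ℝ) : Prop :=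
  ∀ k : Fin 5, ∀ q₁ ∈ H828.XD k, ∀ x₁ : ℂ, (∀ l, x₁ ≠ q₁ l) →
    ∃ C, ∀ᶠ p : Bs × ℂ in 𝓝 (q₁, x₁), LB η A c C p

/-- the form after the cut-offs -/
abbrev etaC (η : (Fin 6 → ℝ) → Bs → ℂ → ℂ → (Bs × ℂ →L[ℝ] ℝ))
    (A : (Fin 6 → ℝ) → Bs → (ℂ × ℂ →L[ℝ] ℝ)) : (Fin 6 → ℝ) → Bs → ℂ → ℂ → (Bs × ℂ →L[ℝ] ℝ) :=
  fun ξ => etaP (η ξ) (A ξ)

variable {k : Fin 5}

theorem etaC_local (hL : FlatL η A c) (hF : ∀ ξ, IsCl ξ → FlatOn XX (η ξ) (A ξ)) {q₁ : Bs}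
    (hq : q₁ ∈ H828.XD k) {x₁ : ℂ} (hx : x₁ ≠ q₁ k.castSucc) :
    ∃ C, ∀ᶠ p : Bs × ℂ in 𝓝 (q₁, x₁), LB (etaC η A) A c C p := by
  by_cases hr : ∃ l, x₁ = q₁ l
  · -- near a root the form is zero
    obtain ⟨l, rfl⟩ := hr
    have h1 : l ≠ k.castSucc := fun h => hx (by rw [h])
    have h2 : l ≠ k.succ := fun h => hx (by rw [h, hq.1])
    have hI := isol_of_XD hq h1 h2
    have c1 : ContinuousAt (fun p : Bs × ℂ => hh p.1 l) (q₁, q₁ l) :=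
      ContinuousAt.comp (f := Prod.fst) (g := fun b : Bs => hh b l)
        (contDiffAt_hh' hI).continuousAt continuousAt_fst
    have c2 : ContinuousAt (fun p : Bs × ℂ => 64 * ‖p.2 - p.1 l‖ ^ 2) (q₁, q₁ l) :=
      (show Continuous fun p : Bs × ℂ => 64 * ‖p.2 - p.1 l‖ ^ 2 by fun_prop).continuousAt
    have h0 : 64 * ‖q₁ l - q₁ l‖ ^ 2 < hh q₁ l := by simpa using hh_pos' hI
    refine ⟨0, ?_⟩
    filter_upwards [c2.eventually_lt c1 h0] with p h3 hp ξ hξ y hy hy0 w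
    have hxl : p.2 ≠ p.1 l := by
      intro h
      have : ff p ≠ 0 := by rw [← hy]; exact pow_ne_zero 2 hy0
      exact ff_ne_zero_iff.1 this l h
    have e0 : etaC η A ξ p.1 p.2 y = 0 := etaP_eq_zero (hF ξ hξ) hp h3 hxl hy
    rw [e0]
    simp
  · push Not at hr
    obtain ⟨C1, h1⟩ := hL k q₁ hq x₁ hr
    obtain ⟨C2, hC2, h2⟩ := dcut_local (H := ℝ) hq hr
    refine ⟨C1 + C2, ?_⟩
    filter_upwards [h1, h2] with p h3 h4 hp ξ hξ y hy hy0 w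
    have e1 := h3 hp ξ hξ y hy hy0 w
    have e2 := h4 (XX_sub_Cf hp) (A ξ) (((hF ξ hξ).smoothA _ hp).differentiableAt (by simp)) y hy w
    have e3 : etaC η A ξ p.1 p.2 y w = η ξ p.1 p.2 y w - dcut (A ξ) p.1 p.2 y w := rfl
    rw [e3]
    refine (abs_sub _ _).trans ?_
    rw [Real.norm_eq_abs] at e2
    have := abs_nonneg (fderiv ℝ (c ξ) p.1 w.1)
    have e4 : C2 * (‖A ξ p.1‖ * ‖w‖ + ‖fderiv ℝ (A ξ) p.1 w.1‖) ≤
        C2 * (‖A ξ p.1‖ * ‖w‖ + ‖fderiv ℝ (A ξ) p.1 w.1‖ + |fderiv ℝ (c ξ) p.1 w.1|) :=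
      mul_le_mul_of_nonneg_left (by linarith) hC2.le
    calc _ ≤ _ := add_le_add e1 (e2.trans e4)
      _ = _ := by ring

/-- merged configurations near `q₀` -/
theorem exists_ball_XD {q₀ : Bs} (hq : q₀ ∈ H828.XD k) : ∃ ρ > 0, ∀ q : Bs, dist q q₀ ≤ ρ →
    q k.castSucc = q k.succ → q ∈ H828.XD k := by
  have h : ∀ᶠ q : Bs in 𝓝 q₀, ∀ i j, i < j → (i ≠ k.castSucc ∨ j ≠ k.succ) →
      (q i).re = (q j).re → (q j).im < (q i).im := by
    rw [eventually_all]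
    intro i
    rw [eventually_all]
    intro j
    by_cases hij : i < j
    · by_cases hk : i ≠ k.castSucc ∨ j ≠ k.succ
      · by_cases hre : (q₀ i).re = (q₀ j).re
        · have h1 := hq.2 i j hij hk hre
          have h2 : ∀ᶠ q : Bs in 𝓝 q₀, (q j).im < (q i).im :=
            (isOpen_lt (f := fun q : Bs => (q j).im) (g := fun q : Bs => (q i).im)
              (by fun_prop) (by fun_prop)).mem_nhds h1
          filter_upwards [h2] with q hq _ _ _ using hq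
        · have h2 : ∀ᶠ q : Bs in 𝓝 q₀, (q i).re ≠ (q j).re :=
            (isOpen_ne_fun (f := fun q : Bs => (q i).re) (g := fun q : Bs => (q j).re)
              (by fun_prop) (by fun_prop)).mem_nhds hre
          filter_upwards [h2] with q hq _ _ h3 using absurd h3 hq
      · exact Eventually.of_forall fun q _ h => absurd h hk
    · exact Eventually.of_forall fun q h => absurd h hij
  obtain ⟨ε, hε, h⟩ := Metric.eventually_nhds_iff.1 h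
  refine ⟨ε / 2, by positivity, fun q h1 h2 => ⟨h2, fun i j => h (by linarith) i j⟩⟩

/-- **uniform local bound on compact parts of the core** -/
theorem etaC_compact (hL : FlatL η A c) (hF : ∀ ξ, IsCl ξ → FlatOn XX (η ξ) (A ξ)) {q₀ : Bs}
    {ρ : ℝ} (hρ : ∀ q : Bs, dist q q₀ ≤ ρ → q k.castSucc = q k.succ → q ∈ H828.XD k)
    (R a : ℝ) (ha : 0 < a) : ∃ C r : ℝ, 0 < C ∧ 0 < r ∧ ∀ q : Bs, dist q q₀ ≤ ρ →
      q k.castSucc = q k.succ → ∀ x : ℂ, ‖x‖ ≤ R → a ≤ ‖x - q k.castSucc‖ →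
      ∀ b : Bs, dist b q < r → LB (etaC η A) A c C (b, x) := by
  set K : Set (Bs × ℂ) := {p | dist p.1 q₀ ≤ ρ ∧ p.1 k.castSucc = p.1 k.succ ∧ ‖p.2‖ ≤ R ∧
    a ≤ ‖p.2 - p.1 k.castSucc‖} with hK
  have hKc : IsCompact K := by
    have h1 : IsCompact (Metric.closedBall q₀ ρ ×ˢ Metric.closedBall (0 : ℂ) R) :=
      (isCompact_closedBall _ _).prod (isCompact_closedBall _ _)
    refine h1.of_isClosed_subset ?_ ?_
    · have k1 : IsClosed {p : Bs × ℂ | dist p.1 q₀ ≤ ρ} :=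
        isClosed_le (by fun_prop) (by fun_prop)
      have k2 : IsClosed {p : Bs × ℂ | p.1 k.castSucc = p.1 k.succ} :=
        isClosed_eq (by fun_prop) (by fun_prop)
      have k3 : IsClosed {p : Bs × ℂ | ‖p.2‖ ≤ R} := isClosed_le (by fun_prop) (by fun_prop)
      have k4 : IsClosed {p : Bs × ℂ | a ≤ ‖p.2 - p.1 k.castSucc‖} :=
        isClosed_le (by fun_prop) (by fun_prop)
      exact k1.inter (k2.inter (k3.inter k4))
    · rintro p ⟨h2, -, h3, -⟩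
      exact ⟨by simpa using h2, by simpa using h3⟩
  have hloc : ∀ p ∈ K, ∃ C, ∀ᶠ p' : Bs × ℂ in 𝓝 p, LB (etaC η A) A c C p' := by
    rintro p ⟨h1, h2, -, h3⟩
    refine etaC_local hL hF (hρ p.1 h1 h2) (x₁ := p.2) ?_
    intro h
    rw [h, sub_self, norm_zero] at h3
    linarith
  -- one constant near all points
  have hall : ∃ C : ℝ, 0 < C ∧ ∀ᶠ p' in 𝓝ˢ K, LB (etaC η A) A c C p' := by
    refine hKc.induction_on (p := fun s => ∃ C : ℝ, 0 < C ∧ ∀ᶠ p' in 𝓝ˢ s, LB (etaC η A) A c C p')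
      ?_ ?_ ?_ ?_
    · exact ⟨1, one_pos, by simp⟩
    · rintro s t hst ⟨C, hC, h⟩
      exact ⟨C, hC, h.filter_mono (nhdsSet_mono hst)⟩
    · rintro s t ⟨C, hC, h⟩ ⟨C', hC', h'⟩
      refine ⟨max C C', lt_max_of_lt_left hC, ?_⟩
      rw [nhdsSet_union, eventually_sup]
      exact ⟨h.mono fun p hp => hp.mono (le_max_left _ _),
        h'.mono fun p hp => hp.mono (le_max_right _ _)⟩
    · intro p hp
      obtain ⟨C, h⟩ := hloc p hp
      obtain ⟨t, ht, hto, hpt⟩ := eventually_nhds_iff.1 h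
      refine ⟨t ∩ K, inter_mem (mem_nhdsWithin_of_mem_nhds (hto.mem_nhds hpt)) self_mem_nhdsWithin,
        max C 1, by positivity, ?_⟩
      have h3 : ∀ᶠ p' in 𝓝ˢ t, LB (etaC η A) A c C p' := by
        rw [hto.nhdsSet_eq]
        exact ht
      exact (h3.filter_mono (nhdsSet_mono inter_subset_left)).mono fun p hp => hp.mono (le_max_left _ _)
  obtain ⟨C, hC, h⟩ := hall
  obtain ⟨t, hto, hKt, ht⟩ := mem_nhdsSet_iff_exists.1 h
  obtain ⟨r, hr, h2⟩ := hKc.exists_thickening_subset_open hto hKt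
  refine ⟨C, r, hC, hr, fun q h3 h4 x h5 h6 b h7 => ht (h2 ?_)⟩
  rw [Metric.mem_thickening_iff]
  refine ⟨(q, x), ⟨h3, h4, h5, h6⟩, ?_⟩
  rw [Prod.dist_eq]
  exact max_lt h7 (by simpa using hr)

end Vale.Agent.P273.H401.Core
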