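import Vale.Agent.P273.H598.Sol

/-!
# P273, row ASY1, item N1 (helper401): the flat form in the neck, numbers at one point

Along a path of configurations and marks in a neck the potential of the flat form is
`ξ_k + Re ((x + i b / π) (L - lg (-d))) + Re (v · (P (X) - P (Y)))`, where `v` is the solution of the
one-node system and `x` its slope. `NkNum` collects the bounds of all terms at one point and in one
direction; `dU` is the derivative.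
-/

noncomputable section

namespace Vale.Agent.P273.H401

open Complex H598.Sol
open scoped Real

/-- The derivative of the potential. -/
def dU (x x' ℓ b : ℝ) (lX lY : ℂ) (v v' : ℂ × ℂ × ℝ) (PX PY PX' PY' : ℂ × ℂ) : ℝ :=
  x' * ℓ + x * ((lX - lY) / 2).re - b / π * ((lX - lY) / 2).im + (dot v' (PX - PY)).re +
    (dot v (PX' - PY')).re

/-- The numbers at one point and in one direction. `A`, `c` are the constants; `M = -log |d|`,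
`y` = length, `dn = |d|`, `X`, `Y` = absolute values of the neck coordinates, `lX`, `lY` = the
logarithmic derivatives, `δ` = norm of the regular part of the direction, `p'` = norm of
`(d', q')`; `σ`, `s`, `β` = sizes of the class as in `Sol.Sz`. -/
structure NkNum (A c M y σ s β b dn δ p' X Y x x' ℓ : ℝ) (lX lY : ℂ) (v v' : ℂ × ℂ × ℝ)
    (PX PY PX' PY' : ℂ × ℂ) : Prop where
  A1 : 1 ≤ A
  c0 : 0 < c
  c1 : c ≤ 1
  hM : 2 * A ≤ M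
  hy : y = 2 * (M + Real.log c)
  y1 : 1 ≤ y
  hd : dn = Real.exp (-M)
  X0 : 0 < X
  Y0 : 0 < Y
  Xc : X ≤ c
  Yc : Y ≤ c
  hXY : X * Y = dn ^ 2
  hℓ : ℓ = Real.log X + M
  σ0 : 0 ≤ σ
  s0 : 0 ≤ s
  hb : |b| ≤ β
  δ0 : 0 ≤ δ
  p0 : 0 ≤ p'
  hp : p' ≤ δ + dn * ‖(lX + lY) / 2‖
  hx : |x| ≤ 2 * (A * σ + s + 2 * β) / M
  hx' : |x'| ≤ 2 * (A * σ * p' + β * |((lX + lY) / 2).im|) / M +
    4 * (A * σ + s + 2 * β) * (|((lX + lY) / 2).re| + A * p') / M ^ 2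
  hv : ‖v‖ ≤ A * σ + A * (2 * (A * σ + s + 2 * β) / M)
  hv' : ‖v'‖ ≤ A * σ * p' + A * (2 * (A * σ + s + 2 * β) / M) * p' +
    A * (2 * (A * σ * p' + β * |((lX + lY) / 2).im|) / M +
      4 * (A * σ + s + 2 * β) * (|((lX + lY) / 2).re| + A * p') / M ^ 2)
  rel : ∃ g m μ : ℝ, |g| ≤ A * σ * p' ∧ |m| ≤ A * p' ∧ |μ| ≤ A ∧
    x' * (M - μ) = g - b / π * ((lX + lY) / 2).im - x * (-((lX + lY) / 2).re - m)
  hPX : ‖PX‖ ≤ A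
  hPY : ‖PY‖ ≤ A
  hPX' : ‖PX'‖ ≤ A * (X * ‖lX‖ + 2 * dn ^ 2 * ‖(lX + lY) / 2‖ + δ)
  hPY' : ‖PY'‖ ≤ A * (Y * ‖lY‖ + 2 * dn ^ 2 * ‖(lX + lY) / 2‖ + δ)

/-- The three clauses for arbitrary directions. -/
def NkT : Prop := ∀ A c : ℝ, 1 ≤ A → 0 < c → c ≤ 1 → ∃ B : ℝ, 0 < B ∧
  ∀ (M y b dn δ p' X Y x x' ℓ : ℝ) (lX lY : ℂ) (v v' : ℂ × ℂ × ℝ) (PX PY PX' PY' : ℂ × ℂ),
    (∀ N : ℝ, 0 ≤ N → NkNum A c M y N N (2 * N) b dn δ p' X Y x x' ℓ lX lY v v' PX PY PX' PY' →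
      |dU x x' ℓ b lX lY v v' PX PY PX' PY'| ≤ B * N * (δ + ‖lX‖ + ‖lY‖)) ∧
    (∀ N : ℝ, 0 ≤ N → NkNum A c M y N N 0 b dn δ p' X Y x x' ℓ lX lY v v' PX PY PX' PY' →
      |dU x x' ℓ b lX lY v v' PX PY PX' PY'| ≤
        B * N * (δ + (X + y⁻¹) * ‖lX‖ + (Y + y⁻¹) * ‖lY‖)) ∧
    (NkNum A c M y 0 1 0 b dn δ p' X Y x x' ℓ lX lY v v' PX PY PX' PY' →
      |dU x x' ℓ b lX lY v v' PX PY PX' PY'| ≤ B * y⁻¹ * (δ + ‖lX‖ + ‖lY‖))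

/-- The two clauses for the Euler direction. -/
def NkE : Prop := ∀ A c : ℝ, 1 ≤ A → 0 < c → c ≤ 1 → ∃ B : ℝ, 0 < B ∧
  ∀ (M y b dn p' X Y x x' ℓ : ℝ) (v v' : ℂ × ℂ × ℝ) (PX PY PX' PY' : ℂ × ℂ),
    (∀ N : ℝ, 0 ≤ N → NkNum A c M y N N (2 * N) b dn 0 p' X Y x x' ℓ
        ((y⁻¹ * Real.log (X / c) : ℝ) : ℂ) ((y⁻¹ * Real.log (Y / c) : ℝ) : ℂ)
        v v' PX PY PX' PY' →
      |dU x x' ℓ b ((y⁻¹ * Real.log (X / c) : ℝ) : ℂ) ((y⁻¹ * Real.log (Y / c) : ℝ) : ℂ)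
        v v' PX PY PX' PY'| ≤ B * N * y⁻¹) ∧
    (NkNum A c M y 0 1 0 b dn 0 p' X Y x x' ℓ
        ((y⁻¹ * Real.log (X / c) : ℝ) : ℂ) ((y⁻¹ * Real.log (Y / c) : ℝ) : ℂ)
        v v' PX PY PX' PY' →
      |dU x x' ℓ b ((y⁻¹ * Real.log (X / c) : ℝ) : ℂ) ((y⁻¹ * Real.log (Y / c) : ℝ) : ℂ)
        v v' PX PY PX' PY'| ≤ B * y⁻¹ ^ 2)

end Vale.Agent.P273.H401

end
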