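import Vale.Agent.P273.H598.Node4
import Vale.Agent.P273.H931.FHalf
import Vale.Agent.P273.H996.NeckU
import Vale.Agent.P273.H339.Node

/-!
# P273, row ASY1, item N1 (helper401): the family over the neck coordinates

Coordinates of 339: `p = ((q, l), z)`, `d = exp l`, `X = exp (l + z)`, `Y = exp (l - z)`.
-/

noncomputable section

namespace Vale.Agent.P273.H401.Nk

open Set Filter Complex
open H681 (C6 XX)
open H95 (IsCl)
open H339 (En dn Xn Yn bn Zn)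
open H598 (lg HH GG NB bb DN c0 P0)
open H598.Sol (dot)
open H598.Sol.Dat (xs vs mu gaL Bds Sz)
open H580 (fl mkA AX)
open scoped Topology ContDiff Real

/-- the parameters of the linear system -/
def pE (w : En) : ℂ × C6 := (dn w, w.1.1)

/-- `-log |d|` -/
def mE (w : En) : ℝ := -w.1.2.re

/-- the angle -/
def phE (w : En) : ℝ := (lg (-dn w)).im

/-- the logarithm of `X` -/
def lE (w : En) : ℂ := w.1.2 + w.2

/-- the regular part -/
def fE (k : Fin 5) (ρ : ℝ) (w : En) : ℂ × ℂ := H931.FF k ρ w.1.1 (dn w ^ 2) (Xn w) (Yn w)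

/-- coordinate `q` -/
abbrev prQ : En →L[ℝ] C6 := (ContinuousLinearMap.fst ℝ C6 ℂ).comp (ContinuousLinearMap.fst ℝ (C6 × ℂ) ℂ)

/-- coordinate `l` -/
abbrev prL : En →L[ℝ] ℂ := (ContinuousLinearMap.snd ℝ C6 ℂ).comp (ContinuousLinearMap.fst ℝ (C6 × ℂ) ℂ)

/-- coordinate `z` -/
abbrev prZ : En →L[ℝ] ℂ := ContinuousLinearMap.snd ℝ (C6 × ℂ) ℂ

lemma mE_eq (w : En) : mE w = -Real.log ‖dn w‖ := by
  unfold mE dn
  rw [Complex.norm_exp, Real.log_exp]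

lemma hasFDerivAt_exp' {f : En → ℂ} {f' : En →L[ℝ] ℂ} {p : En} (h : HasFDerivAt f f' p) :
    HasFDerivAt (fun w => cexp (f w)) (cexp (f p) • f') p := by
  have h1 : HasFDerivAt cexp (cexp (f p) • (1 : ℂ →L[ℝ] ℂ)) (f p) := by
    have := (Complex.hasDerivAt_exp (f p)).hasFDerivAt.restrictScalars ℝ
    refine this.congr_fderiv ?_
    ext; simp [mul_comm]
  have h2 := h1.comp p h
  refine h2.congr_fderiv ?_
  ext w <;> simp

lemma hasFDerivAt_dn (p : En) : HasFDerivAt dn (dn p • prL) p :=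
  hasFDerivAt_exp' prL.hasFDerivAt

lemma hasFDerivAt_Xn (p : En) : HasFDerivAt Xn (Xn p • (prL + prZ)) p :=
  hasFDerivAt_exp' (prL + prZ).hasFDerivAt

lemma hasFDerivAt_Yn (p : En) : HasFDerivAt Yn (Yn p • (prL - prZ)) p :=
  hasFDerivAt_exp' (prL - prZ).hasFDerivAt

lemma hasFDerivAt_pE (p : En) : HasFDerivAt pE ((dn p • prL).prod prQ) p :=
  (hasFDerivAt_dn p).prodMk prQ.hasFDerivAt

lemma hasFDerivAt_mE (p : En) : HasFDerivAt mE (-(reCLM.comp prL)) p :=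
  (reCLM.comp prL).hasFDerivAt.neg

lemma hasFDerivAt_lE (p : En) : HasFDerivAt lE (prL + prZ) p := (prL + prZ).hasFDerivAt

lemma hasFDerivAt_phE {p : En} (hp : -dn p ∈ H908.Sl) :
    HasFDerivAt phE (imCLM.comp prL) p := by
  have h0 : dn p ≠ 0 := Complex.exp_ne_zero _
  have h1 : HasFDerivAt (fun w => -dn w) (-(dn p • prL)) p := (hasFDerivAt_dn p).neg
  have h2 : HasFDerivAt lg ((-dn p)⁻¹ • (1 : ℂ →L[ℝ] ℂ)) (-dn p) := by
    have := (H598.hasDerivAt_lg hp).hasFDerivAt.restrictScalars ℝ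
    refine this.congr_fderiv ?_
    ext; simp [mul_comm]
  have h3 := h2.comp p h1
  have h4 := imCLM.hasFDerivAt.comp p h3
  refine h4.congr_fderiv ?_
  refine ContinuousLinearMap.ext fun w => ?_
  show ((-dn p)⁻¹ • (-(dn p • w.1.2))).im = (w.1.2).im
  congr 1
  rw [smul_eq_mul, smul_eq_mul]
  field_simp

lemma hasFDerivAt_dn2 (p : En) : HasFDerivAt (fun w => dn w ^ 2) ((2 * dn p ^ 2) • prL) p := by
  have h1 := (hasFDerivAt_dn p).mul (hasFDerivAt_dn p)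
  have h2 : (fun w => dn w ^ 2) = fun w => dn w * dn w := by
    funext w
    ring
  rw [h2]
  refine h1.congr_fderiv ?_
  refine ContinuousLinearMap.ext fun w => ?_
  show dn p • (dn p • w.1.2) + dn p • (dn p • w.1.2) = (2 * dn p ^ 2) • w.1.2
  simp only [smul_eq_mul]
  ring

/-- **the derivative of the regular part** -/
theorem exists_fE {k : Fin 5} {V : Set C6} {ρ : ℝ} {q₀ : C6} {R C : ℝ}
    (hF : H931.FBd k V ρ q₀ R C) {p : En} (hq : ‖p.1.1 - q₀‖ ≤ R) (hX : ‖Xn p‖ ≤ R)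
    (hY : ‖Yn p‖ ≤ R) : ∃ F' : En →L[ℝ] ℂ × ℂ, HasFDerivAt (fE k ρ) F' p ∧ ‖fE k ρ p‖ ≤ 4 * C ∧
      ∀ (δ : C6) (lX lY : ℂ), ‖F' ((δ, (lX + lY) / 2), (lX - lY) / 2)‖ ≤
        4 * C * (‖δ‖ + ‖Xn p‖ * ‖lX‖ + ‖Yn p‖ * ‖lY‖) := by
  obtain ⟨F', h1, h2, h3⟩ := hF.ff (q := fun w : En => w.1.1) (ε := fun w => dn w ^ 2) (X := Xn)
    (Y := Yn) prQ.hasFDerivAt (hasFDerivAt_dn2 p) (hasFDerivAt_Xn p) (hasFDerivAt_Yn p) hq hX hY
    (H339.Xn_mul_Yn p).symm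
  refine ⟨F', h1, h2, fun δ lX lY => ?_⟩
  refine h3 _ lX lY ?_ ?_ ?_
  · show Xn p • ((lX + lY) / 2 + (lX - lY) / 2) = Xn p * lX
    rw [smul_eq_mul]
    ring
  · show Yn p • ((lX + lY) / 2 - (lX - lY) / 2) = Yn p * lY
    rw [smul_eq_mul]
    ring
  · show (2 * dn p ^ 2) • ((lX + lY) / 2) = Xn p * Yn p * (lX + lY)
    rw [smul_eq_mul, H339.Xn_mul_Yn]
    ring

/-- **the potential of 339 is the potential of 996** -/
theorem un_eq {k : Fin 5} {ρ : ℝ} {q₀ : C6} (h : (DN k ρ).Ok ((0 : ℂ), q₀)) {ξ : Fin 6 → ℝ}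
    {w : En} (h1 : fl ξ (bb k (dn w, w.1.1)) =
      vs h (dn w, w.1.1) (-Real.log ‖dn w‖) (lg (-dn w)).im ξ)
    (h2 : dot (fl ξ (bb k (dn w, w.1.1))) ((DN k ρ).c (dn w, w.1.1)) =
      xs h (dn w, w.1.1) (-Real.log ‖dn w‖) (lg (-dn w)).im ξ +
        (((ξ k.succ - ξ k.castSucc) / π : ℝ) : ℂ) * I) :
    H339.Un (AX ξ) k ρ w = H996.NeckEst.Un h ξ (pE w) (mE w) (phE w) (lE w) (fE k ρ w) -
      ξ k.castSucc + (ξ k.succ - ξ k.castSucc) / π * (w.1.2.im - phE w) := by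
  have e1 : H339.Un (AX ξ) k ρ w = (dot (fl ξ (bb k (dn w, w.1.1)))
      ((DN k ρ).c (dn w, w.1.1)) * w.2 + dot (fl ξ (bb k (dn w, w.1.1))) (fE k ρ w)).re := by
    show ((fl ξ (bb k (dn w, w.1.1))).1 * Zn k ρ 0 w +
      (fl ξ (bb k (dn w, w.1.1))).2.1 * Zn k ρ 1 w).re = _
    congr 1
    unfold Zn dot
    show _ = ((fl ξ (bb k (dn w, w.1.1))).1 * (c0 (fun z => HH k 0 (w.1.1, z)) (5 * ρ) (dn w ^ 2)) +
      (fl ξ (bb k (dn w, w.1.1))).2.1 * (c0 (fun z => HH k 1 (w.1.1, z)) (5 * ρ) (dn w ^ 2))) * w.2 +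
      ((fl ξ (bb k (dn w, w.1.1))).1 *
        (P0 (fun z => HH k 0 (w.1.1, z)) (5 * ρ) (Xn w) (dn w ^ 2) -
          P0 (fun z => HH k 0 (w.1.1, z)) (5 * ρ) (Yn w) (dn w ^ 2)) +
        (fl ξ (bb k (dn w, w.1.1))).2.1 *
        (P0 (fun z => HH k 1 (w.1.1, z)) (5 * ρ) (Xn w) (dn w ^ 2) -
          P0 (fun z => HH k 1 (w.1.1, z)) (5 * ρ) (Yn w) (dn w ^ 2)))
    ring
  rw [e1, h2, h1]
  have e2 : -Real.log ‖dn w‖ = mE w := (mE_eq w).symm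
  rw [e2]
  show _ = ξ k.castSucc + xs h (pE w) (mE w) (phE w) ξ * ((lE w).re + mE w) -
    (ξ k.succ - ξ k.castSucc) / π * ((lE w).im - phE w) +
    (dot (vs h (pE w) (mE w) (phE w) ξ) (fE k ρ w)).re - ξ k.castSucc + _
  have e3 : (lE w).re + mE w = w.2.re := by
    unfold lE mE
    rw [add_re]
    ring
  have e4 : (lE w).im = w.1.2.im + w.2.im := by
    unfold lE
    rw [add_im]
  rw [e3, e4, add_re]
  have e5 : (((xs h (pE w) (mE w) (phE w) ξ : ℝ) : ℂ) +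
      (((ξ k.succ - ξ k.castSucc) / π : ℝ) : ℂ) * I) * w.2 =
      ((xs h (pE w) (mE w) (phE w) ξ : ℝ) : ℂ) * w.2 +
        (((ξ k.succ - ξ k.castSucc) / π : ℝ) : ℂ) * (I * w.2) := by ring
  show ((((xs h (pE w) (mE w) (phE w) ξ : ℝ) : ℂ) +
      (((ξ k.succ - ξ k.castSucc) / π : ℝ) : ℂ) * I) * w.2).re +
      (dot (vs h (pE w) (mE w) (phE w) ξ) (fE k ρ w)).re = _
  rw [e5, add_re, re_ofReal_mul, re_ofReal_mul, I_mul_re]
  ring

/-- a point of the neck and the local solution near it -/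
structure Pt (k : Fin 5) (ρ : ℝ) (q₀ : C6) (h : (DN k ρ).Ok ((0 : ℂ), q₀)) (A : ℝ) (p : En) :
    Prop where
  bds : Bds h A (dn p, p.1.1)
  big : 2 * A ≤ mE p
  sl : -dn p ∈ H908.Sl
  ev : ∀ᶠ w : En in 𝓝 p, ∀ ξ, IsCl ξ → fl ξ (bb k (dn w, w.1.1)) =
      vs h (dn w, w.1.1) (-Real.log ‖dn w‖) (lg (-dn w)).im ξ ∧
      dot (fl ξ (bb k (dn w, w.1.1))) ((DN k ρ).c (dn w, w.1.1)) =
        xs h (dn w, w.1.1) (-Real.log ‖dn w‖) (lg (-dn w)).im ξ +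
          (((ξ k.succ - ξ k.castSucc) / π : ℝ) : ℂ) * I

/-- **the derivative**: any derivative of 996's potential is the derivative of 339's -/
theorem Pt.fderiv_eq {k : Fin 5} {ρ : ℝ} {q₀ : C6} {h : (DN k ρ).Ok ((0 : ℂ), q₀)} {A : ℝ}
    {p : En} (hp : Pt k ρ q₀ h A p) {ξ : Fin 6 → ℝ} (hξ : IsCl ξ) {U' : En →L[ℝ] ℝ}
    (hU : HasFDerivAt
      (fun w => H996.NeckEst.Un h ξ (pE w) (mE w) (phE w) (lE w) (fE k ρ w)) U' p) :
    fderiv ℝ (H339.Un (AX ξ) k ρ) p = U' := by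
  have h1 : HasFDerivAt (fun w : En => w.1.2.im - phE w) (0 : En →L[ℝ] ℝ) p := by
    have h2 := (imCLM.comp prL).hasFDerivAt.sub (hasFDerivAt_phE hp.sl)
    rw [sub_self] at h2
    exact h2
  have h3 := ((hU.sub_const (ξ k.castSucc)).add (h1.const_mul ((ξ k.succ - ξ k.castSucc) / π)))
  rw [smul_zero, add_zero] at h3
  refine (h3.congr_of_eventuallyEq ?_).fderiv
  filter_upwards [hp.ev] with w hw
  exact un_eq h (hw ξ hξ).1 (hw ξ hξ).2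

end Vale.Agent.P273.H401.Nk

end
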