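import Vale.Agent.P273.H401.NkFin
import Vale.Agent.P273.H730.Fin0

/-!
# P273, row ASY1 (helper401): the one mark form near the divisor
-/

namespace Vale.Agent.P273.H401

/-- **the neck bounds of the one mark form** -/
theorem neckO : H730.NeckO H580.theOne :=
  H225.neckO_of H580.theFlatFam Nk.neckF H379.baseA

/-- **all bounds of the one mark form near the divisor** -/
theorem oneAsy : H730.OneAsy H580.theOne := H730.oneAsy_of Nk.neckF

end Vale.Agent.P273.H401
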