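import Vale.Agent.P273.H401.Cfg

/-!
Two pairs turn while a parameter moves.
-/

noncomputable section
namespace Vale.Agent.P273.H401

open MeasureTheory Set H681 H828

variable {V F : Type*} [AddCommGroup V] [Module ℝ V] [NormedAddCommGroup F] [NormedSpace ℝ F]

theorem face00 (t : ℝ) (y : Fin 2 → ℝ) : face (0 : Fin 3) t y 0 = t := rfl
theorem face01 (t : ℝ) (y : Fin 2 → ℝ) : face (0 : Fin 3) t y 1 = y 0 := rfl
theorem face02 (t : ℝ) (y : Fin 2 → ℝ) : face (0 : Fin 3) t y 2 = y 1 := rfl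
theorem face10 (t : ℝ) (y : Fin 2 → ℝ) : face (1 : Fin 3) t y 0 = y 0 := rfl
theorem face11 (t : ℝ) (y : Fin 2 → ℝ) : face (1 : Fin 3) t y 1 = t := rfl
theorem face12 (t : ℝ) (y : Fin 2 → ℝ) : face (1 : Fin 3) t y 2 = y 1 := rfl
theorem face20 (t : ℝ) (y : Fin 2 → ℝ) : face (2 : Fin 3) t y 0 = y 0 := rfl
theorem face21 (t : ℝ) (y : Fin 2 → ℝ) : face (2 : Fin 3) t y 1 = y 1 := rfl
theorem face22 (t : ℝ) (y : Fin 2 → ℝ) : face (2 : Fin 3) t y 2 = t := rfl

theorem contDiff_cfg {E : Type*} [NormedAddCommGroup E] [NormedSpace ℝ E] {δ : E → Fin 5 → ℂ}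
    (h : ∀ a, ContDiff ℝ 2 (fun y => δ y a)) : ContDiff ℝ 2 (fun y => cfg (δ y)) := by
  rw [contDiff_pi]
  have h0 := h 0
  have h1 := h 1
  have h2 := h 2
  have h3 := h 3
  have h4 := h 4
  intro i
  fin_cases i <;> simp only [cfg, Fin.zero_eta, Fin.mk_one, Fin.reduceFinMk, Matrix.cons_val]
  · exact contDiff_const.add ((contDiff_const.sub h0).div_const 2)
  · exact (contDiff_const.sub ((contDiff_const.sub h0).div_const 2)).add
      ((contDiff_const.sub h1).div_const 2)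
  · exact (contDiff_const.sub ((contDiff_const.sub h1).div_const 2)).add
      ((contDiff_const.sub h2).div_const 2)
  · exact (contDiff_const.sub ((contDiff_const.sub h2).div_const 2)).add
      ((contDiff_const.sub h3).div_const 2)
  · exact (contDiff_const.sub ((contDiff_const.sub h3).div_const 2)).add
      ((contDiff_const.sub h4).div_const 2)
  · exact contDiff_const.sub ((contDiff_const.sub h4).div_const 2)

/-- the real part of the difference of a pair whose neighbours are at rest -/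
theorem cfg_re_lt (j : Fin 5) {δ : Fin 5 → ℂ} (hj : (δ j).re < 0)
    (hn : ∀ a : Fin 5, (a.1 + 1 = j.1 ∨ j.1 + 1 = a.1) → δ a = 1) :
    (cfg δ j.succ).re < (cfg δ j.castSucc).re := by
  fin_cases j
  · have n1 := hn 1 (by decide)
    simp at hj
    simp [cfg, n1]; linarith
  · have n1 := hn 0 (by decide)
    have n2 := hn 2 (by decide)
    simp at hj
    simp [cfg, n1, n2]; linarith
  · have n1 := hn 1 (by decide)
    have n2 := hn 3 (by decide)
    simp at hj
    simp [cfg, n1, n2]; linarith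
  · have n1 := hn 2 (by decide)
    have n2 := hn 4 (by decide)
    simp at hj
    simp [cfg, n1, n2]; linarith
  · have n1 := hn 3 (by decide)
    simp at hj
    simp [cfg, n1]; linarith

/-- two special values -/
def two (j k : Fin 5) (x y : ℂ) (c : Fin 5 → ℂ) : Fin 5 → ℂ :=
  fun a => if a = j then x else if a = k then y else c a

/-- data of two turning pairs that move with a parameter -/
structure Turn (j k : Fin 5) (A : ℝ × ℝ → ℂ) (C : ℝ → Fin 5 → ℂ) : Prop where
  hjk : j.1 + 2 ≤ k.1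
  hA : ContDiff ℝ 2 A
  hC : ∀ a, ContDiff ℝ 2 (fun l => C l a)
  hA1 : ∀ l, A (l, 1) = -A (l, 0)
  hpos : ∀ l ∈ Icc (0 : ℝ) 1, 0 < (A (l, 0)).re
  hAs : ∀ l ∈ Icc (0 : ℝ) 1, ∀ s ∈ Icc (0 : ℝ) 1, Slit (A (l, s))
  hCs : ∀ l ∈ Icc (0 : ℝ) 1, ∀ a, Slit (C l a)
  hiso : ∀ l x y, Iso (two j k x y (C l))

namespace Turn

variable {j k : Fin 5} {A : ℝ × ℝ → ℂ} {C : ℝ → Fin 5 → ℂ}

theorem ne (h : Turn j k A C) : j ≠ k := by
  intro e; have := h.hjk; rw [e] at this; omega

/-- a configuration of the family -/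
def conf (j k : Fin 5) (A : ℝ × ℝ → ℂ) (C : ℝ → Fin 5 → ℂ) (l s t : ℝ) : C6 :=
  cfg (two j k (A (l, s)) (A (l, t)) (C l))

theorem nb_j (h : Turn j k A C) (l : ℝ) (x y : ℂ) (a : Fin 5)
    (ha : a.1 + 1 = j.1 ∨ j.1 + 1 = a.1) : two j k x y (C l) a = 1 := by
  have hjk := h.hjk
  have haj : a ≠ j := by intro e; rw [e] at ha; omega
  have hak : a ≠ k := by intro e; rw [e] at ha; omega
  have h2 := h.hiso l 2 y
  have key : two j k x y (C l) a = two j k 2 y (C l) a := by simp [two, haj]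
  rw [key]
  rcases ha with ha | ha
  · have hlt : a.1 < 4 := by have := j.2; omega
    have := h2 ⟨a.1, hlt⟩
    have e1 : (⟨a.1, hlt⟩ : Fin 4).castSucc = a := by ext; simp
    have e2 : (⟨a.1, hlt⟩ : Fin 4).succ = j := by ext; simp [ha]
    rw [e1, e2] at this
    rcases this with h | h
    · exact h
    · simp [two] at h
  · have hlt : j.1 < 4 := by have := a.2; omega
    have := h2 ⟨j.1, hlt⟩
    have e1 : (⟨j.1, hlt⟩ : Fin 4).castSucc = j := by ext; simp
    have e2 : (⟨j.1, hlt⟩ : Fin 4).succ = a := by ext; simp [ha]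
    rw [e1, e2] at this
    rcases this with h | h
    · simp [two] at h
    · exact h

theorem nb_k (h : Turn j k A C) (l : ℝ) (x y : ℂ) (a : Fin 5)
    (ha : a.1 + 1 = k.1 ∨ k.1 + 1 = a.1) : two j k x y (C l) a = 1 := by
  have hjk := h.hjk
  have haj : a ≠ j := by intro e; rw [e] at ha; omega
  have hak : a ≠ k := by intro e; rw [e] at ha; omega
  have h2 := h.hiso l x 2
  have hkj : k ≠ j := h.ne.symm
  have key : two j k x y (C l) a = two j k x 2 (C l) a := by simp [two, haj, hak]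
  rw [key]
  rcases ha with ha | ha
  · have hlt : a.1 < 4 := by have := k.2; omega
    have := h2 ⟨a.1, hlt⟩
    have e1 : (⟨a.1, hlt⟩ : Fin 4).castSucc = a := by ext; simp
    have e2 : (⟨a.1, hlt⟩ : Fin 4).succ = k := by ext; simp [ha]
    rw [e1, e2] at this
    rcases this with h | h
    · exact h
    · simp [two, hkj] at h
  · have hlt : k.1 < 4 := by have := a.2; omega
    have := h2 ⟨k.1, hlt⟩
    have e1 : (⟨k.1, hlt⟩ : Fin 4).castSucc = k := by ext; simp
    have e2 : (⟨k.1, hlt⟩ : Fin 4).succ = a := by ext; simp [ha]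
    rw [e1, e2] at this
    rcases this with h | h
    · simp [two, hkj] at h
    · exact h

theorem conf_mem (h : Turn j k A C) {l s t : ℝ} (hl : l ∈ Icc (0 : ℝ) 1)
    (hs : s ∈ Icc (0 : ℝ) 1) (ht : t ∈ Icc (0 : ℝ) 1) : conf j k A C l s t ∈ XX := by
  refine cfg_mem (h.hiso _ _ _) fun a => ?_
  unfold two
  split_ifs
  · exact h.hAs l hl s hs
  · exact h.hAs l hl t ht
  · exact h.hCs l hl a

theorem contDiff_conf (h : Turn j k A C) {E : Type*} [NormedAddCommGroup E] [NormedSpace ℝ E]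
    {f g e : E → ℝ} (hf : ContDiff ℝ 2 f) (hg : ContDiff ℝ 2 g) (he : ContDiff ℝ 2 e) :
    ContDiff ℝ 2 (fun y => conf j k A C (f y) (g y) (e y)) := by
  refine contDiff_cfg fun a => ?_
  unfold two
  split_ifs
  · exact h.hA.comp (hf.prodMk hg)
  · exact h.hA.comp (hf.prodMk he)
  · exact (h.hC a).comp hf

theorem swap_j (h : Turn j k A C) (l t : ℝ) :
    swL j (conf j k A C l 1 t) = conf j k A C l 0 t := by
  refine swL_cfg j ?_ (fun a ha => ?_) fun a ha => h.nb_j _ _ _ a ha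
  · simp [two, h.hA1]
  · simp [two, ha]

theorem swap_k (h : Turn j k A C) (l s : ℝ) :
    swL k (conf j k A C l s 1) = conf j k A C l s 0 := by
  have hkj : k ≠ j := h.ne.symm
  refine swL_cfg k ?_ (fun a ha => ?_) fun a ha => h.nb_k _ _ _ a ha
  · simp [two, h.hA1, hkj]
  · simp [two, ha]

/-- **Stokes for two turning pairs** -/
theorem stokes (h : Turn j k A C) (D : Loc2 V F) (v : V) :
    sq D v (fun y => conf j k A C 1 (y 0) (y 1)) - sq D v (fun y => conf j k A C 0 (y 0) (y 1)) =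
      sq D (D.s j v - v) (fun y => conf j k A C (y 0) 0 (y 1)) -
        sq D (D.s k v - v) (fun y => conf j k A C (y 0) (y 1) 0) := by
  have hkj : k ≠ j := h.ne.symm
  have c0 : ContDiff ℝ 2 (fun y : Fin 2 → ℝ => y 0) := contDiff_apply ℝ ℝ 0
  have c1 : ContDiff ℝ 2 (fun y : Fin 2 → ℝ => y 1) := contDiff_apply ℝ ℝ 1
  have G : Good 3 (fun y => conf j k A C (y 0) (y 1) (y 2)) :=
    ⟨h.contDiff_conf (contDiff_apply ℝ ℝ 0) (contDiff_apply ℝ ℝ 1) (contDiff_apply ℝ ℝ 2),
      fun y hy => h.conf_mem ⟨hy.1 0, hy.2 0⟩ ⟨hy.1 1, hy.2 1⟩ ⟨hy.1 2, hy.2 2⟩⟩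
  have key := cube3 D v G
  simp only [face00, face01, face02, face10, face11, face12, face20, face21, face22] at key
  -- the faces `s = 0, 1`
  have g0 : ∀ s ∈ Icc (0 : ℝ) 1, Good 2 (fun y : Fin 2 → ℝ => conf j k A C (y 0) s (y 1)) :=
    fun s hs => ⟨h.contDiff_conf c0 contDiff_const c1,
      fun y hy => h.conf_mem ⟨hy.1 0, hy.2 0⟩ hs ⟨hy.1 1, hy.2 1⟩⟩
  have g1 : ∀ s ∈ Icc (0 : ℝ) 1, Good 2 (fun y : Fin 2 → ℝ => conf j k A C (y 0) (y 1) s) :=
    fun s hs => ⟨h.contDiff_conf c0 c1 contDiff_const,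
      fun y hy => h.conf_mem ⟨hy.1 0, hy.2 0⟩ ⟨hy.1 1, hy.2 1⟩ hs⟩
  have e1 : sq D v (fun y => conf j k A C (y 0) 1 (y 1)) =
      sq D (D.s j v) (fun y => conf j k A C (y 0) 0 (y 1)) := by
    rw [sq_equi D j v (g0 1 (by simp)) fun y hy => ?_]
    · exact sq_congr D _ (funext fun y => h.swap_j _ _)
    · refine cfg_re_lt j ?_ fun a ha => h.nb_j _ _ _ a ha
      simp only [two, if_true, h.hA1, Complex.neg_re, Left.neg_neg_iff]
      exact h.hpos _ ⟨hy.1 0, hy.2 0⟩
  have e2 : sq D v (fun y => conf j k A C (y 0) (y 1) 1) =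
      sq D (D.s k v) (fun y => conf j k A C (y 0) (y 1) 0) := by
    rw [sq_equi D k v (g1 1 (by simp)) fun y hy => ?_]
    · exact sq_congr D _ (funext fun y => h.swap_k _ _)
    · refine cfg_re_lt k ?_ fun a ha => h.nb_k _ _ _ a ha
      simp only [two, hkj, if_false, if_true, h.hA1, Complex.neg_re, Left.neg_neg_iff]
      exact h.hpos _ ⟨hy.1 0, hy.2 0⟩
  rw [e1, e2] at key
  rw [sq_sub D _ _ (g0 0 (by simp)), sq_sub D _ _ (g1 0 (by simp))]
  rw [← sub_eq_zero, ← key]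
  abel

end Turn

end Vale.Agent.P273.H401
end
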